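import Vale.Agent.P196.Tile.Desub.Grid

/-!
P196, module D: a valid tiling has exactly one grid of parents.

The heights are counted everywhere, the rows `0` count the abscissae and agree through the column
`x = 0`, the band and the rows in use follow; the halves are the flags `qx` and `qy`, which change
exactly at the lines `x = 0` and `y = 0`.
-/

namespace Vale.Agent.P196.Tile

open ChildRules

namespace Grid

variable {L : ℕ} {c : V → St}

/-- The fields fixed by the position in a quarter. -/
def SameCore (t t' : St) : Prop :=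
  t.xk = t'.xk ∧ t.x = t'.x ∧ t.y = t'.y ∧ t.u = t'.u ∧ t.fin.live = t'.fin.live

lemma claims_congr {t t' : St} (h1 : t.xk = t'.xk) (h2 : t.x = t'.x) (h3 : t.y = t'.y)
    (h4 : t.u = t'.u) : claims L t = claims L t' := by
  cases t
  cases t'
  cases h1
  cases h2
  cases h3
  cases h4
  rfl

lemma counter_congr {t t' d d' : St} (h1 : t.xk = t'.xk) (h2 : t.x = t'.x) (h3 : t.y = t'.y)
    (hd : t.y ≠ 0 → d.u = d'.u) (h : CounterNum L t d) (h' : CounterNum L t' d') : t.u = t'.u := by
  obtain ⟨k, x, y, u, f⟩ := t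
  obtain ⟨k', x', y', u', f'⟩ := t'
  cases h1
  cases h2
  cases h3
  let cl := claims L ⟨k, x, y, u, f⟩
  let rel : ℕ → ℕ → Prop := fun v dv =>
    if cl.xk && cl.cx.xh0 && cl.cx.xl0 && decide (cl.cx.xmC.val = 3) && !(decide (y = 0)) &&
        decide (A ≤ cl.cy.yhC.val) then
      (if cl.cy.yl0 && decide (cl.cy.ymC.val = 1) && decide (cl.cy.yhMod.val = 0) then
        (if cl.cy.yhC.val = A then v = 1 else v = 2 * dv % M L)
       else v = dv)
    else v = 0
  have e : rel u d.u := h
  have e' : rel u' d'.u := h'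
  show u = u'
  simp only [rel] at e e'
  split_ifs at e e' with c1 c2 c3
  all_goals
    first
    | (rw [e, e']; done)
    | (rw [e, e', hd]
       simp only [Bool.and_eq_true, Bool.not_eq_true', decide_eq_false_iff_not] at c1
       exact c1.1.2)

lemma carryNext_y0 {t d : Claims} (dc : Option Carry) (q : Quad) (h : t.isY0 = true) :
    carryNext t d dc q = none := by
  have hw : t.isWire = false := by
    rw [Bool.eq_false_iff]
    intro hw
    simp only [Claims.isWire, Claims.isY0, Bool.and_eq_true, decide_eq_true_iff] at hw h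
    omega
  unfold carryNext
  simp [hw, h]

lemma carryNext_isSome {t d : Claims} {dc dc' : Option Carry} (q q' : Quad)
    (h : t.isY0 = false → dc.isSome = dc'.isSome) :
    (carryNext t d dc q).isSome = (carryNext t d dc' q').isSome := by
  have hy : t.isWire = true → t.isY0 = false := fun hw => by
    simp only [Claims.isWire, Bool.and_eq_true, decide_eq_true_iff] at hw
    simp [Claims.isY0, hw.2]
  unfold carryNext
  split_ifs with h1 h2 h3 h4 h5 h6
  all_goals try rfl
  · simp [h (hy h2)]
  · exact h (by simpa using h6)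

lemma isY0_iff' (L : ℕ) (t : St) : (claims L t).isY0 = true ↔ t.y = 0 := by
  have hY : (0 : ℕ) < YB := by unfold YB; omega
  rw [y_eq_zero_iff L t.y]
  simp only [Claims.isY0, Bool.and_eq_true, decide_eq_true_iff, and_assoc]
  simp only [claims, decide_eq_true_iff]
  refine and_congr Iff.rfl (and_congr ?_ ?_) <;> omega

lemma flips_unique {K : ℕ} {a : ℤ} (g g' : ℤ → Bool)
    (hg : ∀ n, g (n + 1) = if res K (n + 1 - a) = 0 then !g n else g n)
    (hg' : ∀ n, g' (n + 1) = if res K (n + 1 - a) = 0 then !g' n else g' n)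
    (h : g a = g' a) (n : ℤ) : g n = g' n := by
  obtain ⟨i, rfl⟩ : ∃ i, n = a + i := ⟨n - a, by ring⟩
  induction i using Int.induction_on with
  | zero => simpa using h
  | succ i ih => rw [show a + ((i : ℤ) + 1) = (a + i) + 1 by ring, hg, hg', ih]
  | pred i ih =>
    have h1 := hg (a + (-(i : ℤ) - 1))
    have h2 := hg' (a + (-(i : ℤ) - 1))
    rw [show a + (-(i : ℤ) - 1) + 1 = a + -(i : ℤ) by ring] at h1 h2
    rw [ih, h2] at h1
    revert h1
    split_ifs <;> simp [eq_comm]

lemma const_eq {β : Type} (f : ℤ → β) (h : ∀ n, f (n + 1) = f n) (n k : ℤ) : f n = f k := by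
  have key : ∀ i, f i = f 0 := fun i => by
    induction i using Int.induction_on with
    | zero => rfl
    | succ i ih => rw [h, ih]
    | pred i ih =>
      rw [← ih]
      conv_rhs => rw [show -(i : ℤ) = (-(i : ℤ) - 1) + 1 by ring]
      rw [h]
  rw [key n, key k]

lemma shell_mod (X Y : ℕ) : SameCore (shell L X Y) (shell L (X % H L) (Y % H L)) := by
  simp [SameCore, shell, child, Nat.mod_mod]

lemma vbits_zero (Y : ℕ) : VBits Y (fun _ _ => false) (fun _ _ => false) :=
  ⟨fun _ => rfl, fun _ _ => ⟨rfl, rfl⟩⟩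

variable (hL : L₀ ≤ L) (hc : ValidTiling L c)

include hc in
lemma count_y : ∃ b : ℤ, ∀ n m, (c (n, m)).y = res (H L) (m - b) := by
  refine ⟨-((c (0, 0)).y : ℤ), fun n m => ?_⟩
  rw [const_eq (fun n => (c (n, m)).y) (fun n => (horiz hc n m).2.1) n 0,
    count_eq (fun m => (c (0, m)).y) (fun m => (one hc _).2.2.1) (fun m => (vert hc 0 m).2.1.1) m]
  simp [sub_neg_eq_add]

variable {b : ℤ} (hy : ∀ n m, (c (n, m)).y = res (H L) (m - b))

include hc hy in
lemma row_xk {n m : ℤ} (hm : res (H L) (m - b) = 0) : (c (n, m)).xk = true :=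
  (one hc (n, m)).1.y0_xk ((isY0_iff' L _).2 ((hy n m).trans hm))

include hc hy in
lemma not_isY0 {n m : ℤ} (hm : res (H L) (m - b) ≠ 0) :
    (claims L (c (n, m))).isY0 = false := by
  rw [Bool.eq_false_iff]
  exact fun h => hm ((hy n m).symm.trans ((isY0_iff' L _).1 h))

/-- The band. -/
def InBand (L x : ℕ) : Prop := hi L x = 0 ∧ mid L x ≤ 7

lemma band_claims {t : St} (h : InBand L t.x) : (claims L t).band = true := by
  simp only [Claims.band, Bool.and_eq_true, decide_eq_true_iff]
  simp only [claims, decide_eq_true_iff]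
  exact ⟨h.1, by have := h.2; omega⟩

include hc hy in
lemma climb {n m : ℤ} (hm : res (H L) (m - b) = 0) (hb : InBand L (c (n, m)).x) :
    ∀ j : ℕ, j < H L → (c (n, m + j)).xk = true ∧ (c (n, m + j)).x = (c (n, m)).x
  | 0, _ => by simpa using row_xk hc hy hm
  | j + 1, hj => by
    obtain ⟨h1, h2⟩ := climb hm hb j (by omega)
    obtain ⟨hv, hn, -⟩ := vert hc n (m + j)
    rw [show m + (j : ℤ) + 1 = m + ((j + 1 : ℕ) : ℤ) by push_cast; ring] at hv hn
    have hy0 : (claims L (c (n, m + ((j + 1 : ℕ) : ℤ)))).isY0 = false := by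
      refine not_isY0 hc hy ?_
      rw [show m + ((j + 1 : ℕ) : ℤ) - b = (m - b) + ((j + 1 : ℕ) : ℤ) by ring,
        res_add (H_pos L) (by omega), hm]
      omega
    have e1 : (claims L (c (n, m + (j : ℤ)))).xk = true := h1
    have e2 := band_claims (t := c (n, m + (j : ℤ))) (h2.symm ▸ hb)
    have hk : (c (n, m + ((j + 1 : ℕ) : ℤ))).xk = true := by
      refine (hv.xk hy0).trans ?_
      simp [e1, e2]
    exact ⟨hk, (hn.2 hk h1).trans h2⟩

include hc hy in
lemma climb_top {n m : ℤ} (hm : res (H L) (m - b) = 0) (hb : InBand L (c (n, m)).x) :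
    (c (n, m + H L)).x = (c (n, m)).x := by
  have hH := H_pos L
  obtain ⟨h1, h2⟩ := climb hc hy hm hb (H L - 1) (by omega)
  obtain ⟨-, hn, -⟩ := vert hc n (m + ((H L - 1 : ℕ) : ℤ))
  rw [show m + ((H L - 1 : ℕ) : ℤ) + 1 = m + (H L : ℤ) by omega] at hn
  have hk : (c (n, m + (H L : ℤ))).xk = true := row_xk hc hy (by
    rw [show m + (H L : ℤ) - b = (m - b) + H L by ring, res_add_self, hm])
  exact (hn.2 hk h1).trans h2

include hL hc hy in
lemma count_x : ∃ a : ℤ, ∀ n m, res (H L) (m - b) = 0 →
    (c (n, m)).x = res (H L) (n - a) := by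
  have hH := H_pos L
  set f : ℤ → ℕ := fun k => (c (0, b + k * H L)).x
  have hrow : ∀ k, res (H L) (b + k * (H L : ℤ) - b) = 0 := fun k =>
    res_eq hH _ ⟨k, by push_cast; ring⟩
  have cnt : ∀ n k, (c (n, b + k * H L)).x = res (H L) (n + f k) := fun n k =>
    count_eq (fun n => (c (n, b + k * H L)).x) (fun n => (one hc _).2.1)
      (fun n => (horiz hc n _).2.2 (row_xk hc hy (hrow k)) (row_xk hc hy (hrow k))) n
  have hf : ∀ k, f (k + 1) = f k := fun k => by
    have h0 : (c (-(f k : ℤ), b + k * H L)).x = 0 := by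
      rw [cnt, neg_add_cancel]
      exact res_eq hH 0 (by simp)
    have hb : InBand L (c (-(f k : ℤ), b + k * H L)).x := by
      rw [h0]
      simp [InBand, hi, mid]
    have h := climb_top hc hy (hrow k) hb
    rw [h0, show b + k * (H L : ℤ) + H L = b + (k + 1) * H L by ring, cnt] at h
    obtain ⟨t, ht⟩ := dvd_sub_res hH (-(f k : ℤ) + (f (k + 1) : ℤ))
    rw [h] at ht
    push_cast at ht
    have hlt : f (k + 1) < H L := (one hc _).2.1
    have hlt' : f k < H L := (one hc _).2.1
    have hz := Int.eq_zero_of_dvd_of_natAbs_lt_natAbs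
      (⟨t, by linarith⟩ : (H L : ℤ) ∣ (f (k + 1) : ℤ) - f k) (by omega)
    omega
  refine ⟨-(f 0 : ℤ), fun n m hm => ?_⟩
  obtain ⟨k, hk⟩ := dvd_sub_res hH (m - b)
  rw [hm] at hk
  rw [show m = b + k * (H L : ℤ) by push_cast at hk; linarith, cnt, const_eq f hf k 0,
    sub_neg_eq_add]

variable {a : ℤ} (hx : ∀ n m, res (H L) (m - b) = 0 → (c (n, m)).x = res (H L) (n - a))

/-- Every row is some height above a row `0`. -/
lemma split_row (b m : ℤ) : ∃ m₀ : ℤ, ∃ j : ℕ, j < H L ∧ res (H L) (m - b) = j ∧
    res (H L) (m₀ - b) = 0 ∧ m = m₀ + j :=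
  ⟨m - res (H L) (m - b), res (H L) (m - b), res_lt (H_pos L) _, rfl,
    res_eq (H_pos L) _ (by
      obtain ⟨t, ht⟩ := dvd_sub_res (H_pos L) (m - b)
      exact ⟨t, by push_cast; linarith⟩), by ring⟩

/-- The shell at the residues. -/
noncomputable def core (L : ℕ) (a b n m : ℤ) : St :=
  shell L (res (H L) (n - a)) (res (H L) (m - b))

include hL hc hy in
lemma core_y (n m : ℤ) : (c (n, m)).y = (core L a b n m).y := by
  rw [hy]
  exact (Nat.mod_eq_of_lt (res_lt (H_pos L) _)).symm

include hL hc hy hx in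
lemma band_col {n : ℤ} (hn : InBand L (res (H L) (n - a))) (m : ℤ) :
    (c (n, m)).xk = (core L a b n m).xk ∧ (c (n, m)).x = (core L a b n m).x := by
  obtain ⟨m₀, j, hj, -, h0, rfl⟩ := split_row (L := L) b m
  have hb : InBand L (c (n, m₀)).x := by rw [hx n m₀ h0]; exact hn
  obtain ⟨h1, h2⟩ := climb hc hy h0 hb j hj
  have hk : knownX L (res (H L) (n - a) % H L) (res (H L) (m₀ + j - b) % H L) = true := by
    rw [Nat.mod_eq_of_lt (res_lt (H_pos L) _)]
    simp [knownX, hn.1, hn.2]
  rw [h1, h2, hx n m₀ h0, core, shell, child_xk, child_x, if_pos hk, hk,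
    Nat.mod_eq_of_lt (res_lt (H_pos L) _)]
  exact ⟨rfl, rfl⟩

include hL hc hy in
lemma counter_col {n : ℤ}
    (hn : ∀ m, (c (n, m)).xk = (core L a b n m).xk ∧ (c (n, m)).x = (core L a b n m).x) (m : ℤ) :
    (c (n, m)).u = (core L a b n m).u ∧
      (c (n, m)).fin.carry.isSome = (core L a b n m).fin.carry.isSome := by
  have hH := H_pos L
  obtain ⟨m₀, j, hj, -, h0, rfl⟩ := split_row (L := L) b m
  induction j with
  | zero =>
    simp only [Nat.cast_zero, add_zero]
    obtain ⟨hv, -, hu⟩ := vert hc n (m₀ - 1)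
    rw [sub_add_cancel] at hv hu
    set X := res (H L) (n - a) with hX
    have hs : SameCore (core L a b n m₀) (shell L X 0) := by
      rw [core, h0]; exact ⟨rfl, rfl, rfl, rfl, rfl⟩
    have hsh := counter_child hL (fun _ => false) (fun _ _ => false) (fun _ _ => false) X 0
      (pred' L 0) (succ_pred' L 0 (by unfold side; omega))
    have hy0 : (c (n, m₀)).y = 0 := by rw [hy, h0]
    have hue : (c (n, m₀)).u = (shell L X 0).u := by
      refine counter_congr ?_ ?_ ?_ (fun h => absurd hy0 h) hu hsh
      · exact (hn m₀).1.trans hs.1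
      · exact (hn m₀).2.trans hs.2.1
      · exact (core_y hL hc hy (a := a) n m₀).trans hs.2.2.1
    refine ⟨hue.trans hs.2.2.2.1.symm, ?_⟩
    have hv' := (childV (τ := fun _ => false) (X := X) hL (by unfold side; omega : (0 : ℕ) < side L)
      (vbits_zero 0)).carry
    have e : (core L a b n m₀).fin.carry = (shell L X 0).fin.carry := by rw [core, h0]
    have hcl : claims L (c (n, m₀)) = claims L (shell L X 0) := claims_congr
      ((hn m₀).1.trans hs.1) ((hn m₀).2.trans hs.2.1)
      ((core_y hL hc hy (a := a) n m₀).trans hs.2.2.1) hue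
    have h1 : (claims L (c (n, m₀))).isY0 = true := (isY0_iff' L _).2 hy0
    rw [e]
    show (cell L (c (n, m₀))).1.carry.isSome =
      (cell L (child L (fun _ => false) (fun _ _ => false) X 0)).1.carry.isSome
    have h2 : (cell L (child L (fun _ => false) (fun _ _ => false) X 0)).2.isY0 = true := by
      show (claims L (shell L X 0)).isY0 = true
      rw [← hcl]
      exact h1
    rw [hv.carry, hv', carryNext_y0 _ _ h1, carryNext_y0 _ _ h2]
  | succ j ih =>
    obtain ⟨ihu, ihc⟩ := ih (by omega)
    set X := res (H L) (n - a) with hX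
    have e1 : core L a b n (m₀ + (j : ℤ)) = shell L X j := by
      rw [core, show m₀ + (j : ℤ) - b = (m₀ - b) + j by ring, res_add hH (by omega), h0, zero_add]
    have e2 : core L a b n (m₀ + ((j + 1 : ℕ) : ℤ)) = shell L X (j + 1) := by
      rw [core, show m₀ + ((j + 1 : ℕ) : ℤ) - b = (m₀ - b) + ((j + 1 : ℕ) : ℤ) by ring,
        res_add hH (by omega), h0, zero_add]
    obtain ⟨hv, -, hu⟩ := vert hc n (m₀ + j)
    rw [show m₀ + (j : ℤ) + 1 = m₀ + ((j + 1 : ℕ) : ℤ) by push_cast; ring] at hv hu
    have hj2 : j + 1 < side L := by unfold side; omega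
    have hp : pred' L (j + 1) = j := pred'_succ L _ hj2 (by omega)
    have hsh := counter_child hL (fun _ => false) (fun _ _ => false) (fun _ _ => false) X (j + 1) j
      (by rw [Nat.mod_add_mod])
    obtain ⟨k1, k2⟩ := hn (m₀ + ((j + 1 : ℕ) : ℤ))
    obtain ⟨l1, l2⟩ := hn (m₀ + (j : ℤ))
    have ky := core_y hL hc hy (a := a) n (m₀ + ((j + 1 : ℕ) : ℤ))
    have ly := core_y hL hc hy (a := a) n (m₀ + (j : ℤ))
    rw [e2] at k1 k2 ky ⊢
    rw [e1] at l1 l2 ly ihu ihc
    have hue : (c (n, m₀ + ((j + 1 : ℕ) : ℤ))).u = (shell L X (j + 1)).u :=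
      counter_congr k1 k2 ky (fun _ => ihu) hu hsh
    refine ⟨hue, ?_⟩
    have hv' := (childV (τ := fun _ => false) (X := X) hL hj2 (vbits_zero (j + 1))).carry
    rw [hp] at hv'
    show (cell L (c (n, m₀ + ((j + 1 : ℕ) : ℤ)))).1.carry.isSome =
      (cell L (child L (fun _ => false) (fun _ _ => false) X (j + 1))).1.carry.isSome
    rw [hv.carry, hv']
    show (carryNext (claims L _) (claims L _) _ _).isSome = _
    rw [claims_congr k1 k2 ky hue, claims_congr l1 l2 ly ihu]
    exact carryNext_isSome _ _ fun _ => ihc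

include hL hc hy hx in
lemma live_eq (n m : ℤ) : (c (n, m)).fin.live = (core L a b n m).fin.live := by
  have hM := eight_lt_M hL
  have hs : InBand L (res (H L) (a + 3 * M L - a)) ∧
      IsCol L (res (H L) (a + 3 * M L - a)) 3 ∧ lo L (res (H L) (a + 3 * M L - a)) = 0 := by
    have h3 : 3 * M L < H L := by
      have := M_le_sq L
      have h : M L * 4 ≤ M L * M L ^ 2 := Nat.mul_le_mul_left _ (by omega)
      unfold H
      rw [pow_succ']
      omega
    rw [show res (H L) (a + 3 * M L - a) = M L * 3 from res_eq (by omega) _ (by push_cast; simp; ring_nf; simp)]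
    obtain ⟨h1, h2⟩ := (col0_iff (L := L) (x := M L * 3) (m := 3) (by omega)).2 rfl
    exact ⟨⟨h1.1, by rw [h1.2]; norm_num⟩, h1, h2⟩
  set n₀ := a + 3 * (M L : ℤ) with hn₀
  rw [const_eq (fun n => (c (n, m)).fin.live) (fun n => (horiz hc n m).1.live) n n₀,
    show (core L a b n m).fin.live = (core L a b n₀ m).fin.live from rfl]
  obtain ⟨hb, h3⟩ := hs
  have hcol := band_col hL hc hy hx hb
  obtain ⟨hu, hcs⟩ := counter_col hL hc hy hcol m
  have p1 := (one hc (n₀, m)).1
  have p2 := childP hL (fun _ => false) (fun _ _ => false) (res (H L) (n₀ - a)) (res (H L) (m - b))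
  have hcl : claims L (c (n₀, m)) = claims L (core L a b n₀ m) :=
    claims_congr (hcol m).1 (hcol m).2 (core_y hL hc hy n₀ m) hu
  have hscan : (claims L (core L a b n₀ m)).isScan = true := by
    refine (claims_scan L _ _ _ _).2 ?_
    rw [Nat.mod_eq_of_lt (res_lt (H_pos L) _)]
    exact h3
  cases hw : (claims L (core L a b n₀ m)).isWire
  · have a1 : (c (n₀, m)).fin.live = false := by
      rw [Bool.eq_false_iff]
      intro h
      have := p1.live_wire h
      simp only [cell, hcl, hw] at this
      exact Bool.noConfusion this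
    have a2 : (core L a b n₀ m).fin.live = false := by
      rw [Bool.eq_false_iff]
      intro h
      exact Bool.noConfusion (hw.symm.trans (p2.live_wire h))
    rw [a1, a2]
  · rcases Nat.lt_or_ge (claims L (core L a b n₀ m)).cy.yhC.val AF with hk | hk
    · have a1 := p1.live_low
      simp only [cell, hcl] at a1
      rw [a1 hw hk]
      exact (p2.live_low hw hk).symm
    · have a1 := p1.live_scan
      simp only [cell, hcl] at a1
      rw [a1 hw hscan hk, hcs]
      exact (p2.live_scan hw hscan hk).symm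

include hL hc hy hx in
lemma pos_eq (n m : ℤ) :
    (c (n, m)).xk = (core L a b n m).xk ∧ (c (n, m)).x = (core L a b n m).x := by
  have hH := H_pos L
  by_cases hband : InBand L (res (H L) (n - a))
  · exact band_col hL hc hy hx hband m
  obtain ⟨m₀, j, hj, hres, h0, rfl⟩ := split_row (L := L) b m
  induction j generalizing n with
  | zero =>
    simp only [Nat.cast_zero, add_zero]
    rw [row_xk hc hy h0, hx n m₀ h0, core, h0, shell, child_xk, child_x]
    simp [knownX, Nat.mod_eq_of_lt (res_lt hH (n - a))]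
  | succ j ih =>
    have hj' : res (H L) (m₀ + (j : ℤ) - b) = j := by
      rw [show m₀ + (j : ℤ) - b = (m₀ - b) + j by ring, res_add hH (by omega), h0, zero_add]
    obtain ⟨i1, i2⟩ := ih n hband (by omega) hj'
    set m := m₀ + ((j + 1 : ℕ) : ℤ) with hm
    have hm1 : m = m₀ + (j : ℤ) + 1 := by rw [hm]; push_cast; ring
    have hy0 : ∀ n', (claims L (c (n', m))).isY0 = false := fun n' =>
      not_isY0 hc hy (by rw [hres]; omega)
    have hxk : ∀ n', (c (n', m)).xk =
        (((c (n', m₀ + (j : ℤ))).xk && (claims L (c (n', m₀ + (j : ℤ)))).band) ||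
          (c (n', m)).fin.live) := fun n' => by
      have := (vert hc n' (m₀ + j)).1.xk
      rw [← hm1] at this
      exact this (hy0 n')
    have hcore : knownX L (res (H L) (n - a)) (j + 1) = decide (IsLive L (j + 1)) := by
      simp only [knownX, Nat.succ_ne_zero, decide_false, Bool.false_or]
      rw [show (decide (hi L (res (H L) (n - a)) = 0) && decide (mid L (res (H L) (n - a)) ≤ 7)) =
        false by simp only [← Bool.decide_and]; exact decide_eq_false hband, Bool.false_or]
    rw [core, hres, shell, child_xk, child_x, Nat.mod_eq_of_lt (res_lt hH _),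
      Nat.mod_eq_of_lt hj, hcore]
    by_cases hl : IsLive L (j + 1)
    · have lv : ∀ n', (c (n', m)).fin.live = true := fun n' => by
        rw [live_eq hL hc hy hx, core, hres, shell, child_live, Nat.mod_eq_of_lt hj]
        simpa using hl
      have kall : ∀ n', (c (n', m)).xk = true := fun n' => by rw [hxk, lv]; simp
      have cnt := count_eq (fun n' => (c (n', m)).x) (fun n' => (one hc _).2.1)
        (fun n' => (horiz hc n' m).2.2 (kall _) (kall _))
      have ha : InBand L (res (H L) (a - a)) := by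
        rw [sub_self, res_eq hH 0 (by simp)]
        simp [InBand, hi, mid]
      have e := (band_col hL hc hy hx ha m).2
      rw [core, sub_self, res_eq hH 0 (by simp), shell, child_x, Nat.zero_mod, ite_self,
        cnt a] at e
      obtain ⟨t, ht⟩ := dvd_sub_res hH (a + ((c (0, m)).x : ℤ))
      simp only [e, Nat.cast_zero, sub_zero] at ht
      refine ⟨by rw [kall]; simpa using hl, ?_⟩
      simp only [hl, decide_true, if_true]
      rw [cnt n]
      obtain ⟨s, hs⟩ := dvd_sub_res hH (n - a)
      exact res_eq (res_lt hH _) _ ⟨s + t, by linarith⟩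
    · have lv : (c (n, m)).fin.live = false := by
        rw [live_eq hL hc hy hx, core, hres, shell, child_live, Nat.mod_eq_of_lt hj]
        simpa using hl
      have hk : (c (n, m)).xk = false := by
        rw [hxk, lv, Bool.or_false, Bool.eq_false_iff]
        intro h
        rw [Bool.and_eq_true] at h
        obtain ⟨hk1, hk2⟩ := h
        rw [core, shell, child_x, child_xk] at *
        rw [i1] at hk1
        rw [if_pos hk1, Nat.mod_eq_of_lt (res_lt hH _)] at i2
        simp only [Claims.band, Bool.and_eq_true, decide_eq_true_iff] at hk2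
        simp only [claims, decide_eq_true_iff, i2] at hk2
        exact hband ⟨hk2.1, by omega⟩
      simp only [hl, decide_false, Bool.false_eq_true, if_false]
      exact ⟨hk, (one hc _).2.2.2.2 hk⟩

include hL hc hy hx in
/-- All positions, counters and rows in use. -/
theorem core_eq (n m : ℤ) : SameCore (c (n, m)) (core L a b n m) :=
  ⟨(pos_eq hL hc hy hx n m).1, (pos_eq hL hc hy hx n m).2, core_y hL hc hy n m,
    (counter_col hL hc hy (pos_eq hL hc hy hx n) m).1, live_eq hL hc hy hx n m⟩

include hL hc hy hx in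
lemma claims_core (n m : ℤ) : claims L (c (n, m)) = claims L (core L a b n m) := by
  obtain ⟨h1, h2, h3, h4, -⟩ := core_eq hL hc hy hx n m
  exact claims_congr h1 h2 h3 h4

/-- The special lines of the halves. -/
lemma special (n m : ℤ) (a b : ℤ) :
    ((claims L (core L a b n m)).x0 = true ↔ res (H L) (n - a) = 0) ∧
    ((claims L (core L a b n m)).cut = true ↔
      IsCol L (res (H L) (n - a)) 7 ∧ lo L (res (H L) (n - a)) = 0) ∧
    ((claims L (core L a b n m)).rowQ = true ↔
      lo L (res (H L) (m - b)) = 0 ∧ mid L (res (H L) (m - b)) = 2 ∧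
        hi L (res (H L) (m - b)) = 0) ∧
    ((claims L (core L a b n m)).isY0 = true ↔ res (H L) (m - b) = 0) ∧
    ((claims L (core L a b n m)).colQ = true ↔
      IsCol L (res (H L) (n - a)) 2 ∧ lo L (res (H L) (n - a)) = 0) ∧
    ((claims L (core L a b n m)).halfRow = true ↔ IsHalfRow L (res (H L) (m - b))) := by
  simp only [core, shell, claims_x0, claims_cut, claims_rowQ, claims_y0, claims_colQ,
    claims_halfRow, Nat.mod_eq_of_lt (res_lt (H_pos L) _), and_self]

include hL hc hy hx in
lemma half_x : ∃ o : ℤ, 0 ≤ o ∧ o < side L ∧ (H L : ℤ) ∣ o - a ∧ ∀ n m r,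
    (c (n, m)).fin.qx = some r → r = decide (H L ≤ res (side L) (n - o)) := by
  have hM := eight_lt_M hL
  have hH := H_pos L
  obtain ⟨hi2, hmid2, hlo2⟩ := coord_of (L := L) (a := 0) (show 2 < M L by omega) (M_pos L)
  simp only [mul_zero, zero_add, add_zero] at hi2 hmid2 hlo2
  set mq := b + 2 * (M L : ℤ) with hmq
  have hres : res (H L) (mq - b) = M L * 2 := by
    refine res_eq ?_ _ (by rw [hmq]; push_cast; simp; ring_nf; simp)
    have h : M L * 3 ≤ M L * M L ^ 2 := Nat.mul_le_mul_left _ (by have := M_le_sq L; omega)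
    unfold H
    rw [pow_succ']
    omega
  have isRow : ∀ {m : ℤ}, res (H L) (m - b) = M L * 2 → ∀ n,
      (claims L (c (n, m))).rowQ = true := fun h n => by
    rw [claims_core hL hc hy hx, (special n _ a b).2.2.1, h]
    exact ⟨hlo2, hmid2, hi2⟩
  set g : ℤ → ℤ → Bool := fun m n => (c (n, m)).fin.qx.getD false
  have hrec : ∀ {m : ℤ}, res (H L) (m - b) = M L * 2 → ∀ n,
      g m (n + 1) = if res (H L) (n + 1 - a) = 0 then !g m n else g m n := fun {m} h n => by
    have hq := (horiz hc n m).1.qx (isRow h _)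
    have hs : (c (n, m)).fin.qx.isSome = true := by
      rw [(one hc (n, m)).1.qx_some]
      simp [show (claims L (c (n, m))).rowQ = true from isRow h n]
    obtain ⟨r, hr⟩ := Option.isSome_iff_exists.1 hs
    simp only [g]
    rw [show (c (n + 1, m)).fin.qx = _ from hq]
    simp only [cell, claims_core hL hc hy hx, hr]
    by_cases h0 : res (H L) (n + 1 - a) = 0
    · simp [(special (n + 1) m a b).1.2 h0, h0]
    · simp [show (claims L (core L a b (n + 1) m)).x0 = false from
        Bool.eq_false_iff.2 fun h' => h0 ((special (n + 1) m a b).1.1 h'), h0]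
  have vertical : ∀ n, (res (H L) (n - a) = 0 ∨
      (IsCol L (res (H L) (n - a)) 7 ∧ lo L (res (H L) (n - a)) = 0)) →
      ∀ m m', (c (n, m)).fin.qx = (c (n, m')).fin.qx := by
    intro n hn
    refine const_eq (fun m => (c (n, m)).fin.qx) fun m => ?_
    refine (vert hc n m).1.qx ?_
    simp only [cell, claims_core hL hc hy hx, Bool.or_eq_true]
    exact hn.imp (special n (m + 1) a b).1.2 (special n (m + 1) a b).2.1.2
  obtain ⟨o, o1, o2, o3, o4⟩ := flip_eq hH (g mq) a (hrec hres)
  refine ⟨o, o1, by unfold side; push_cast; exact o2, o3, fun n m r hr => ?_⟩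
  rw [show side L = 2 * H L from rfl, ← o4]
  have hs : (cell L (c (n, m))).1.qx.isSome = true := by
    show (c (n, m)).fin.qx.isSome = true
    rw [hr]
    rfl
  rw [(one hc (n, m)).1.qx_some] at hs
  simp only [cell, claims_core hL hc hy hx, Bool.or_eq_true] at hs
  rcases hs with (h | h) | h
  · simp only [g, ← vertical n (Or.inl ((special n m a b).1.1 h)) m mq, hr, Option.getD_some]
  · simp only [g, ← vertical n (Or.inr ((special n m a b).2.1.1 h)) m mq, hr, Option.getD_some]
  · obtain ⟨e1, e2, e3⟩ := (special n m a b).2.2.1.1 h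
    have hm : res (H L) (m - b) = M L * 2 := by
      have := coord_eq L (res (H L) (m - b))
      rw [e1, e2, e3] at this
      simpa using this
    have hga : g mq a = g m a := by
      simp only [g]
      rw [vertical a (Or.inl (res_eq hH _ (by simp))) mq m]
    rw [flips_unique (g mq) (g m) (hrec hres) (hrec hm) hga n]
    simp [g, hr]

include hL hc hy hx in
lemma half_y : ∃ o : ℤ, 0 ≤ o ∧ o < side L ∧ (H L : ℤ) ∣ o - b ∧ ∀ n m r,
    (c (n, m)).fin.qy = some r → r = decide (H L ≤ res (side L) (m - o)) := by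
  have hM := eight_lt_M hL
  have hH := H_pos L
  set nq := a + 2 * (M L : ℤ) with hnq
  have hres : res (H L) (nq - a) = M L * 2 := by
    refine res_eq ?_ _ (by rw [hnq]; push_cast; simp; ring_nf; simp)
    have h : M L * 3 ≤ M L * M L ^ 2 := Nat.mul_le_mul_left _ (by have := M_le_sq L; omega)
    unfold H
    rw [pow_succ']
    omega
  have isQ : ∀ {n : ℤ}, res (H L) (n - a) = M L * 2 → ∀ m,
      (claims L (c (n, m))).colQ = true := fun h m => by
    rw [claims_core hL hc hy hx, (special _ m a b).2.2.2.2.1, h]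
    exact (col0_iff (by omega)).2 rfl
  set g : ℤ → ℤ → Bool := fun n m => (c (n, m)).fin.qy.getD false
  have hrec : ∀ {n : ℤ}, res (H L) (n - a) = M L * 2 → ∀ m,
      g n (m + 1) = if res (H L) (m + 1 - b) = 0 then !g n m else g n m := fun {n} h m => by
    have hq := (vert hc n m).1.qy (isQ h _)
    have hs : (c (n, m)).fin.qy.isSome = true := by
      rw [(one hc (n, m)).1.qy_some]
      simp [show (claims L (c (n, m))).colQ = true from isQ h m]
    obtain ⟨r, hr⟩ := Option.isSome_iff_exists.1 hs
    simp only [g]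
    rw [show (c (n, m + 1)).fin.qy = _ from hq]
    simp only [cell, claims_core hL hc hy hx, hr]
    by_cases h0 : res (H L) (m + 1 - b) = 0
    · simp [(special n (m + 1) a b).2.2.2.1.2 h0, h0]
    · simp [show (claims L (core L a b n (m + 1))).isY0 = false from
        Bool.eq_false_iff.2 fun h' => h0 ((special n (m + 1) a b).2.2.2.1.1 h'), h0]
  have horizontal : ∀ m, (res (H L) (m - b) = 0 ∨ IsHalfRow L (res (H L) (m - b))) →
      ∀ n n', (c (n, m)).fin.qy = (c (n', m)).fin.qy := by
    intro m hm
    refine const_eq (fun n => (c (n, m)).fin.qy) fun n => ?_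
    refine (horiz hc n m).1.qy ?_
    simp only [cell, claims_core hL hc hy hx, Bool.or_eq_true]
    exact hm.imp (special (n + 1) m a b).2.2.2.1.2 (special (n + 1) m a b).2.2.2.2.2.2
  obtain ⟨o, o1, o2, o3, o4⟩ := flip_eq hH (g nq) b (hrec hres)
  refine ⟨o, o1, by unfold side; push_cast; exact o2, o3, fun n m r hr => ?_⟩
  rw [show side L = 2 * H L from rfl, ← o4]
  have hs : (cell L (c (n, m))).1.qy.isSome = true := by
    show (c (n, m)).fin.qy.isSome = true
    rw [hr]
    rfl
  rw [(one hc (n, m)).1.qy_some] at hs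
  simp only [cell, claims_core hL hc hy hx, Bool.or_eq_true] at hs
  rcases hs with (h | h) | h
  · simp only [g, ← horizontal m (Or.inl ((special n m a b).2.2.2.1.1 h)) n nq, hr,
      Option.getD_some]
  · have hn : res (H L) (n - a) = M L * 2 :=
      (col0_iff (by omega)).1 ((special n m a b).2.2.2.2.1.1 h)
    have hgb : g nq b = g n b := by
      simp only [g]
      rw [horizontal b (Or.inl (res_eq hH _ (by simp))) nq n]
    rw [flips_unique (g nq) (g n) (hrec hres) (hrec hn) hgb m]
    simp [g, hr]
  · simp only [g, ← horizontal m (Or.inr ((special n m a b).2.2.2.2.2.1 h)) n nq, hr,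
      Option.getD_some]

end Grid

open Grid in
/-- A valid tiling has exactly one grid of parents. -/
theorem alignStatement : AlignStatement := by
  intro L hL c hc
  have hH := H_pos L
  have hside : side L = 2 * H L := rfl
  obtain ⟨b, hy⟩ := count_y hc
  obtain ⟨a, hx⟩ := count_x hL hc hy
  obtain ⟨o₁, p1, p2, p3, p4⟩ := half_x hL hc hy hx
  obtain ⟨o₂, q1, q2, q3, q4⟩ := half_y hL hc hy hx
  refine ⟨(o₁, o₂), ⟨⟨p1, p2, q1, q2⟩, fun P X Y hX hY => ?_⟩, fun o' ho' => ?_⟩
  · have ex : res (H L) ((place L (o₁, o₂) P X Y).1 - a) = X % H L := by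
      refine res_eq (Nat.mod_lt _ hH) _ ?_
      obtain ⟨t, ht⟩ := p3
      refine ⟨t + 2 * P.1 + ((X / H L : ℕ) : ℤ), ?_⟩
      have h : ((H L * (X / H L) : ℕ) : ℤ) + ((X % H L : ℕ) : ℤ) = (X : ℤ) := by
        exact_mod_cast Nat.div_add_mod X (H L)
      simp only [place, hside]
      push_cast at h ⊢
      linarith
    have ey : res (H L) ((place L (o₁, o₂) P X Y).2 - b) = Y % H L := by
      refine res_eq (Nat.mod_lt _ hH) _ ?_
      obtain ⟨t, ht⟩ := q3
      refine ⟨t + 2 * P.2 + ((Y / H L : ℕ) : ℤ), ?_⟩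
      have h : ((H L * (Y / H L) : ℕ) : ℤ) + ((Y % H L : ℕ) : ℤ) = (Y : ℤ) := by
        exact_mod_cast Nat.div_add_mod Y (H L)
      simp only [place, hside]
      push_cast at h ⊢
      linarith
    have fx : res (side L) ((place L (o₁, o₂) P X Y).1 - o₁) = X :=
      res_eq hX _ ⟨P.1, by simp [place]; ring⟩
    have fy : res (side L) ((place L (o₁, o₂) P X Y).2 - o₂) = Y :=
      res_eq hY _ ⟨P.2, by simp [place]; ring⟩
    set n := (place L (o₁, o₂) P X Y).1
    set m := (place L (o₁, o₂) P X Y).2
    show SameShell (c (n, m)) _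
    obtain ⟨c1, c2, c3, c4, c5⟩ := core_eq hL hc hy hx n m
    obtain ⟨s1, s2, s3, s4, s5⟩ := shell_mod (L := L) X Y
    simp only [core, ex, ey] at c1 c2 c3 c4 c5
    have hcl : claims L (c (n, m)) = claims L (shell L X Y) :=
      claims_congr (c1.trans s1.symm) (c2.trans s2.symm) (c3.trans s3.symm) (c4.trans s4.symm)
    have hp := childP hL (fun _ => false) (fun _ _ => false) X Y
    have hp' := (one hc (n, m)).1
    refine ⟨c1.trans s1.symm, c2.trans s2.symm, c3.trans s3.symm, c4.trans s4.symm, ?_, ?_,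
      c5.trans s5.symm⟩
    · have e : (c (n, m)).fin.qx.isSome = (shell L X Y).fin.qx.isSome := by
        have h1 := hp'.qx_some
        simp only [cell, hcl] at h1
        exact h1.trans hp.qx_some.symm
      cases hr : (c (n, m)).fin.qx with
      | none =>
        rw [hr] at e
        exact (Option.not_isSome_iff_eq_none.1 (by simp [← e])).symm
      | some r =>
        rw [hr] at e
        rw [p4 n m r hr, fx]
        simp only [shell, child_qx] at e ⊢
        split_ifs at e ⊢ with h
        · rfl
        · simp at e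
    · have e : (c (n, m)).fin.qy.isSome = (shell L X Y).fin.qy.isSome := by
        have h1 := hp'.qy_some
        simp only [cell, hcl] at h1
        exact h1.trans hp.qy_some.symm
      cases hr : (c (n, m)).fin.qy with
      | none =>
        rw [hr] at e
        exact (Option.not_isSome_iff_eq_none.1 (by simp [← e])).symm
      | some r =>
        rw [hr] at e
        rw [q4 n m r hr, fy]
        simp only [shell, child_qy] at e ⊢
        split_ifs at e ⊢ with h
        · rfl
        · simp at e
  · obtain ⟨⟨r1, r2, r3, r4⟩, hal⟩ := ho'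
    have h := hal 0 0 0 (by omega) (by omega)
    have hpl : place L o' 0 0 0 = o' := by simp [place]
    rw [hpl] at h
    obtain ⟨g1, g2, g3, -, g5, g6, -⟩ := h
    simp only [shell, child_qx, child_qy, Nat.zero_mod, true_or, if_true] at g5 g6
    have hf : decide (H L ≤ 0) = false := by simp; omega
    have x1 := p4 _ _ _ g5
    have y1 := q4 _ _ _ g6
    rw [hf] at x1 y1
    have hyz : res (H L) (o'.2 - b) = 0 := by
      rw [← hy o'.1 o'.2]
      simpa [shell, child_y] using g3
    have hxz : res (H L) (o'.1 - a) = 0 := by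
      rw [← hx o'.1 o'.2 hyz]
      simpa [shell, child_x, knownX] using g2
    have key : ∀ o z a : ℤ, 0 ≤ o → o < (side L : ℤ) → 0 ≤ z → z < (side L : ℤ) →
        (H L : ℤ) ∣ o - a → res (H L) (z - a) = 0 →
        false = decide (H L ≤ res (side L) (z - o)) → z = o := by
      intro o z a o0 o1 z0 z1 hoa hza hd
      have hs : 0 < side L := by omega
      have hlt : res (side L) (z - o) < H L := by
        have := of_decide_eq_false hd.symm
        omega
      obtain ⟨u, hu⟩ := hoa
      obtain ⟨v, hv⟩ := dvd_sub_res hH (z - a)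
      obtain ⟨w, hw⟩ := dvd_sub_res hs (z - o)
      rw [hza] at hv
      rw [hside] at hw
      push_cast at hv hw
      have hd' : (H L : ℤ) ∣ ((res (2 * H L) (z - o) : ℕ) : ℤ) := ⟨v - u - 2 * w, by linarith⟩
      have hz0 : ((res (2 * H L) (z - o) : ℕ) : ℤ) = 0 :=
        Int.eq_zero_of_dvd_of_natAbs_lt_natAbs hd' (by rw [hside] at hlt; omega)
      rw [hz0] at hw
      have := Int.eq_zero_of_dvd_of_natAbs_lt_natAbs
        (⟨w, by linarith⟩ : (2 * (H L : ℤ)) ∣ z - o) (by rw [hside] at o1 z1; push_cast at o1 z1; omega)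
      omega
    exact Prod.ext (key o₁ o'.1 a p1 p2 r1 r2 p3 hxz x1) (key o₂ o'.2 b q1 q2 r3 r4 q3 hyz y1)

end Vale.Agent.P196.Tile
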