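import Vale.Agent.P196.Tile.Desub.Grid

/-!
P196, module D: in an aligned valid tiling the shown bits are those of the parents.

Along a wire row and along a bundle column every shown bit is constant between its cuts, the four
crossings of a parent show the same bits, and the bits coming from the left and from below are the
own bits of the parents there.
-/

namespace Vale.Agent.P196.Tile

open ChildRules

namespace Shown

variable {L : ℕ} {c : V → St} {o : V}

/-- The tile of a parent at a position. -/
def tile (L : ℕ) (c : V → St) (o P : V) (X Y : ℕ) : St := c (place L o P X Y)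

lemma const_seg {f : ℕ → Bool} {lo hi : ℕ} (h : ∀ X, lo ≤ X → X < hi → f (X + 1) = f X) {X : ℕ}
    (h1 : lo ≤ X) (h2 : X ≤ hi) : f X = f lo := by
  induction X, h1 using Nat.le_induction with
  | base => rfl
  | succ n hn ih => rw [h n hn (by omega), ih (by omega)]

lemma side_eq (L : ℕ) : side L = 2 * H L := rfl

lemma half_cases {L X : ℕ} (hX : X < side L) :
    (¬ H L ≤ X ∧ X % H L = X) ∨ (H L ≤ X ∧ X % H L + H L = X) := by
  rcases Nat.lt_or_ge X (H L) with h | h
  · exact Or.inl ⟨by omega, Nat.mod_eq_of_lt h⟩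
  · refine Or.inr ⟨h, ?_⟩
    rw [Nat.mod_eq_sub_mod h, Nat.mod_eq_of_lt (show X - H L < H L by
      have := side_eq L
      omega)]
    omega

variable (hL : L₀ ≤ L) (hc : ValidTiling L c) (hA : Aligned L c o)

include hA in
lemma fields (P : V) {X Y : ℕ} (hX : X < side L) (hY : Y < side L) :
    claims L (tile L c o P X Y) = claims L (shell L X Y) ∧
      (tile L c o P X Y).fin.qx = (shell L X Y).fin.qx ∧
      (tile L c o P X Y).fin.qy = (shell L X Y).fin.qy ∧
      (tile L c o P X Y).fin.live = decide (IsLive L (Y % H L)) := by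
  obtain ⟨h1, h2, h3, h4, h5, h6, h7⟩ := hA P X Y hX hY
  refine ⟨?_, h5, h6, h7⟩
  unfold tile
  generalize c (place L o P X Y) = t at h1 h2 h3 h4
  obtain ⟨k, x, y, u, f⟩ := t
  cases h1
  cases h2
  cases h3
  cases h4
  rfl

include hc in
lemma hstep (P : V) (X Y : ℕ) :
    HFacts (cell L (tile L c o P (X + 1) Y)) (cell L (tile L c o P X Y)) := by
  have h := (Grid.horiz hc (place L o P X Y).1 (place L o P X Y).2).1
  have e : ((place L o P X Y).1 + 1, (place L o P X Y).2) = place L o P (X + 1) Y := by
    refine Prod.ext ?_ rfl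
    simp only [place]
    push_cast
    ring
  rwa [e] at h

include hc in
lemma hwrap (P : V) (Y : ℕ) :
    HFacts (cell L (tile L c o P 0 Y)) (cell L (tile L c o (P - (1, 0)) (side L - 1) Y)) := by
  have h := (Grid.horiz hc (place L o (P - (1, 0)) (side L - 1) Y).1
    (place L o (P - (1, 0)) (side L - 1) Y).2).1
  have hs : 1 ≤ side L := by
    have := H_pos L
    have := side_eq L
    omega
  have e : ((place L o (P - (1, 0)) (side L - 1) Y).1 + 1,
      (place L o (P - (1, 0)) (side L - 1) Y).2) = place L o P 0 Y := by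
    refine Prod.ext ?_ ?_ <;> simp only [place, Prod.fst_sub, Prod.snd_sub, sub_zero]
    rw [Nat.cast_sub hs]
    push_cast
    ring
  rwa [e] at h

include hc in
lemma vstep (P : V) (X Y : ℕ) :
    VFacts (cell L (tile L c o P X (Y + 1))) (cell L (tile L c o P X Y)) := by
  have h := (Grid.vert hc (place L o P X Y).1 (place L o P X Y).2).1
  have e : ((place L o P X Y).1, (place L o P X Y).2 + 1) = place L o P X (Y + 1) := by
    refine Prod.ext rfl ?_
    simp only [place]
    push_cast
    ring
  rwa [e] at h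

include hc in
lemma vwrap (P : V) (X : ℕ) :
    VFacts (cell L (tile L c o P X 0)) (cell L (tile L c o (P - (0, 1)) X (side L - 1))) := by
  have h := (Grid.vert hc (place L o (P - (0, 1)) X (side L - 1)).1
    (place L o (P - (0, 1)) X (side L - 1)).2).1
  have hs : 1 ≤ side L := by
    have := H_pos L
    have := side_eq L
    omega
  have e : ((place L o (P - (0, 1)) X (side L - 1)).1,
      (place L o (P - (0, 1)) X (side L - 1)).2 + 1) = place L o P X 0 := by
    refine Prod.ext ?_ ?_ <;> simp only [place, Prod.fst_sub, Prod.snd_sub, sub_zero]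
    rw [Nat.cast_sub hs]
    push_cast
    ring
  rwa [e] at h

lemma sizes (hL : L₀ ≤ L) :
    cutX L + 1 < H L ∧ halfY L + 1 < H L ∧ 0 < cutX L ∧ 0 < halfY L := by
  have hM := eight_lt_M hL
  have h1 := M_le_sq L
  have h2 : M L ^ 2 * 8 ≤ M L ^ 2 * M L := Nat.mul_le_mul_left _ (by omega)
  have h3 : (M L / 2 + 1) * M L ^ 2 ≤ M L * M L ^ 2 := Nat.mul_le_mul_right _ (by omega)
  have h4 : 4 * M L ≤ M L ^ 2 := by rw [sq]; exact Nat.mul_le_mul_right _ (by omega)
  rw [Nat.add_mul, one_mul] at h3
  have eH : H L = M L * M L ^ 2 := by rw [H, ← pow_succ']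
  refine ⟨?_, ?_, ?_, ?_⟩
  · unfold cutX
    rw [eH, Nat.mul_comm (M L) (M L ^ 2)]
    omega
  · unfold halfY
    rw [eH]
    omega
  · unfold cutX; omega
  · unfold halfY; omega

include hL hc hA in
/-- The bits along a wire row. -/
lemma row (P : V) {X Y : ℕ} (hX : X < side L) (hY : Y < side L) (hw : IsWire L (Y % H L)) :
    (X + 1 < side L →
      (tile L c o P (X + 1) Y).fin.h =
        if X = H L + cutX L then
          ![(tile L c o P X Y).fin.h 0, false, (tile L c o P X Y).fin.h 2, false]
        else if X = 0 then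
          ![(tile L c o P 1 Y).fin.h 0, (tile L c o P X Y).fin.h 1,
            (tile L c o P 1 Y).fin.h 2, (tile L c o P X Y).fin.h 3]
        else (tile L c o P X Y).fin.h) ∧
    (tile L c o P 0 Y).fin.h = ![false, (tile L c o (P - (1, 0)) (side L - 1) Y).fin.h 0, false,
      (tile L c o (P - (1, 0)) (side L - 1) Y).fin.h 2] := by
  obtain ⟨hc1, -, hc0, -⟩ := sizes hL
  have hs := side_eq L
  have hH := H_pos L
  constructor
  · intro hX1
    obtain ⟨t1, t2, -, -⟩ := fields hA P hX1 hY
    obtain ⟨l1, l2, -, -⟩ := fields hA P hX hY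
    have hr := (hstep (o := o) hc P X Y).h (by
      show (claims L (tile L c o P (X + 1) Y)).isWire = true
      rw [t1]
      exact (claims_wire L _ _ _ _).2 hw)
    simp only [HRule, t1, t2, l1, l2, shell, claims_x0, claims_cut, cut_iff hL,
      child_qx] at hr
    rw [if_neg (by
      rintro ⟨h0, hq⟩
      simp only [h0, true_or, if_true, Option.some.injEq, decide_eq_false_iff_not] at hq
      rcases half_cases hX1 with ⟨-, e⟩ | ⟨e, -⟩
      · omega
      · exact hq e)] at hr
    by_cases hcX : X = H L + cutX L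
    · have e : X % H L = cutX L := by
        subst hcX
        rw [Nat.add_mod_left, Nat.mod_eq_of_lt (by omega)]
      rw [if_pos ⟨e, by
        rw [if_pos (Or.inr (Or.inl e))]
        simp only [Option.some.injEq, decide_eq_true_iff]
        omega⟩] at hr
      rw [if_pos hcX, hr]
    rw [if_neg (by
      rintro ⟨e, hq⟩
      rw [if_pos (Or.inr (Or.inl e))] at hq
      simp only [Option.some.injEq, decide_eq_true_iff] at hq
      rcases half_cases hX with ⟨h, -⟩ | ⟨-, h⟩
      · exact h hq
      · omega)] at hr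
    rw [if_neg hcX]
    by_cases h0 : X = 0
    · subst h0
      rw [if_pos ⟨Nat.zero_mod _, by
        rw [if_pos (Or.inl (Nat.zero_mod _))]
        simp
        omega⟩] at hr
      rw [if_pos rfl]
      funext j
      fin_cases j
      · rfl
      · exact hr.1
      · rfl
      · exact hr.2
    · rw [if_neg (by
        rintro ⟨e, hq⟩
        rw [if_pos (Or.inl e)] at hq
        simp only [Option.some.injEq, decide_eq_false_iff_not] at hq
        rcases half_cases hX with ⟨-, h⟩ | ⟨h, -⟩
        · omega
        · exact hq h)] at hr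
      rw [if_neg h0, hr]
  · obtain ⟨t1, t2, -, -⟩ := fields hA P (show 0 < side L by omega) hY
    have hr := (hwrap (o := o) hc P Y).h (by
      show (claims L (tile L c o P 0 Y)).isWire = true
      rw [t1]
      exact (claims_wire L _ _ _ _).2 hw)
    simp only [HRule, t1, t2, shell, claims_x0, child_qx, Nat.zero_mod, true_or, if_true,
      true_and] at hr
    rw [if_pos (by simp; omega)] at hr
    exact hr

include hL hc hA in
/-- The bits along a bundle column. -/
lemma col (P : V) {X Y : ℕ} (hX : X < side L) (hY : Y < side L) (hb : IsBundle L (X % H L)) :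
    (Y + 1 < side L →
      (tile L c o P X (Y + 1)).fin.vb =
        if Y = H L + halfY L then
          ![(tile L c o P X Y).fin.vb 0, (tile L c o P X Y).fin.vb 1, false, false]
        else if Y = 0 then
          ![(tile L c o P X 1).fin.vb 0, (tile L c o P X 1).fin.vb 1,
            (tile L c o P X Y).fin.vb 2, (tile L c o P X Y).fin.vb 3]
        else (tile L c o P X Y).fin.vb) ∧
    (tile L c o P X 0).fin.vb = ![false, false, (tile L c o (P - (0, 1)) X (side L - 1)).fin.vb 0,
      (tile L c o (P - (0, 1)) X (side L - 1)).fin.vb 1] := by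
  obtain ⟨-, hc1, -, hc0⟩ := sizes hL
  have hs := side_eq L
  have hH := H_pos L
  constructor
  · intro hY1
    obtain ⟨t1, -, t2, -⟩ := fields hA P hX hY1
    obtain ⟨l1, -, l2, -⟩ := fields hA P hX hY
    have hr := (vstep (o := o) hc P X Y).vb (by
      show (claims L (tile L c o P X (Y + 1))).bundle = true
      rw [t1]
      exact (claims_bundle L _ _ _ _).2 hb)
    simp only [VbRule, t1, t2, l1, l2, shell, claims_y0, claims_halfRow, halfRow_iff hL,
      child_qy] at hr
    rw [if_neg (by
      rintro ⟨h0, hq⟩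
      simp only [h0, true_or, if_true, Option.some.injEq, decide_eq_false_iff_not] at hq
      rcases half_cases hY1 with ⟨-, e⟩ | ⟨e, -⟩
      · omega
      · exact hq e)] at hr
    by_cases hcY : Y = H L + halfY L
    · have e : Y % H L = halfY L := by
        subst hcY
        rw [Nat.add_mod_left, Nat.mod_eq_of_lt (by omega)]
      rw [if_pos ⟨e, by
        rw [if_pos (Or.inr (Or.inr e))]
        simp only [Option.some.injEq, decide_eq_true_iff]
        omega⟩] at hr
      rw [if_pos hcY, hr]
    rw [if_neg (by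
      rintro ⟨e, hq⟩
      rw [if_pos (Or.inr (Or.inr e))] at hq
      simp only [Option.some.injEq, decide_eq_true_iff] at hq
      rcases half_cases hY with ⟨h, -⟩ | ⟨-, h⟩
      · exact h hq
      · omega)] at hr
    rw [if_neg hcY]
    by_cases h0 : Y = 0
    · subst h0
      rw [if_pos ⟨Nat.zero_mod _, by
        rw [if_pos (Or.inl (Nat.zero_mod _))]
        simp
        omega⟩] at hr
      rw [if_pos rfl]
      funext j
      fin_cases j
      · rfl
      · rfl
      · exact hr.1
      · exact hr.2
    · rw [if_neg (by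
        rintro ⟨e, hq⟩
        rw [if_pos (Or.inl e)] at hq
        simp only [Option.some.injEq, decide_eq_false_iff_not] at hq
        rcases half_cases hY with ⟨-, h⟩ | ⟨h, -⟩
        · omega
        · exact hq h)] at hr
      rw [if_neg h0, hr]
  · obtain ⟨t1, -, t2, -⟩ := fields hA P hX (show 0 < side L by omega)
    have hr := (vwrap (o := o) hc P X).vb (by
      show (claims L (tile L c o P X 0)).bundle = true
      rw [t1]
      exact (claims_bundle L _ _ _ _).2 hb)
    simp only [VbRule, t1, t2, shell, claims_y0, child_qy, Nat.zero_mod, true_or, if_true,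
      true_and] at hr
    rw [if_pos (by simp; omega)] at hr
    exact hr

/-- The bit shown at a position along a line with own and guest ends. -/
def shown (cut : ℕ) (own : Bool) (X : ℕ) (b : Bool) : Bool :=
  if own then (if X = 0 then false else b) else (if X ≤ cut then b else false)

include hL hc hA in
lemma row_shown (P : V) {X X₀ Y : ℕ} (hX : X < side L) (hY : Y < side L)
    (hw : IsWire L (Y % H L)) (h1 : 1 ≤ X₀) (h2 : X₀ ≤ H L + cutX L) (j : Fin 4) :
    (tile L c o P X Y).fin.h j =
      shown (H L + cutX L) (decide (j = 0 ∨ j = 2)) X ((tile L c o P X₀ Y).fin.h j) := by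
  obtain ⟨hc1, -, hc0, -⟩ := sizes hL
  have hs := side_eq L
  have step : ∀ Z, Z + 1 < side L → _ := fun Z hZ =>
    (row hL hc hA P (show Z < side L by omega) hY hw).1 hZ
  have zero := (row hL hc hA P hX hY hw).2
  unfold shown
  by_cases ho : j = 0 ∨ j = 2
  · have key : ∀ Z, 1 ≤ Z → Z ≤ side L - 1 →
        (tile L c o P Z Y).fin.h j = (tile L c o P 1 Y).fin.h j := fun Z a b =>
      const_seg (f := fun Z => (tile L c o P Z Y).fin.h j) (hi := side L - 1) (fun W w1 w2 => by
        show (tile L c o P (W + 1) Y).fin.h j = _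
        rw [step W (by omega), if_neg (show W ≠ 0 by omega)]
        split_ifs
        · rcases ho with rfl | rfl <;> simp
        · rfl) a b
    rw [if_pos (by simpa using ho)]
    split_ifs with h0
    · subst h0
      rw [zero]
      rcases ho with rfl | rfl <;> simp
    · rw [key X (by omega) (by omega), key X₀ h1 (by omega)]
  · have hj : j = 1 ∨ j = 3 := by fin_cases j <;> simp_all
    have key : ∀ Z, Z ≤ H L + cutX L →
        (tile L c o P Z Y).fin.h j = (tile L c o P 0 Y).fin.h j := fun Z a =>
      const_seg (f := fun Z => (tile L c o P Z Y).fin.h j) (lo := 0) (hi := H L + cutX L)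
        (fun W _ w2 => by
          show (tile L c o P (W + 1) Y).fin.h j = _
          rw [step W (by omega), if_neg (show W ≠ H L + cutX L by omega)]
          split_ifs
          · rcases hj with rfl | rfl <;> simp
          · rfl) (Nat.zero_le _) a
    have high : ∀ Z, H L + cutX L + 1 ≤ Z → Z ≤ side L - 1 →
        (tile L c o P Z Y).fin.h j = false := fun Z a b => by
      refine (const_seg (f := fun Z => (tile L c o P Z Y).fin.h j) (hi := side L - 1)
        (fun W w1 w2 => ?_) a b).trans ?_
      · show (tile L c o P (W + 1) Y).fin.h j = _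
        rw [step W (by omega), if_neg (show W ≠ H L + cutX L by omega),
          if_neg (show W ≠ 0 by omega)]
      · show (tile L c o P (H L + cutX L + 1) Y).fin.h j = false
        rw [step _ (by omega), if_pos rfl]
        rcases hj with rfl | rfl <;> simp
    rw [if_neg (by simpa using ho)]
    split_ifs with h0
    · rw [key X h0, key X₀ h2]
    · exact high X (by omega) (by omega)

include hL hc hA in
lemma col_shown (P : V) {X Y Y₀ : ℕ} (hX : X < side L) (hY : Y < side L)
    (hb : IsBundle L (X % H L)) (h1 : 1 ≤ Y₀) (h2 : Y₀ ≤ H L + halfY L) (j : Fin 4) :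
    (tile L c o P X Y).fin.vb j =
      shown (H L + halfY L) (decide (j = 0 ∨ j = 1)) Y ((tile L c o P X Y₀).fin.vb j) := by
  obtain ⟨-, hc1, -, hc0⟩ := sizes hL
  have hs := side_eq L
  have step : ∀ Z, Z + 1 < side L → _ := fun Z hZ =>
    (col hL hc hA P hX (show Z < side L by omega) hb).1 hZ
  have zero := (col hL hc hA P hX hY hb).2
  unfold shown
  by_cases ho : j = 0 ∨ j = 1
  · have key : ∀ Z, 1 ≤ Z → Z ≤ side L - 1 →
        (tile L c o P X Z).fin.vb j = (tile L c o P X 1).fin.vb j := fun Z a b =>
      const_seg (f := fun Z => (tile L c o P X Z).fin.vb j) (hi := side L - 1) (fun W w1 w2 => by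
        show (tile L c o P X (W + 1)).fin.vb j = _
        rw [step W (by omega), if_neg (show W ≠ 0 by omega)]
        split_ifs
        · rcases ho with rfl | rfl <;> simp
        · rfl) a b
    rw [if_pos (by simpa using ho)]
    split_ifs with h0
    · subst h0
      rw [zero]
      rcases ho with rfl | rfl <;> simp
    · rw [key Y (by omega) (by omega), key Y₀ h1 (by omega)]
  · have hj : j = 2 ∨ j = 3 := by fin_cases j <;> simp_all
    have key : ∀ Z, Z ≤ H L + halfY L →
        (tile L c o P X Z).fin.vb j = (tile L c o P X 0).fin.vb j := fun Z a =>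
      const_seg (f := fun Z => (tile L c o P X Z).fin.vb j) (lo := 0) (hi := H L + halfY L)
        (fun W _ w2 => by
          show (tile L c o P X (W + 1)).fin.vb j = _
          rw [step W (by omega), if_neg (show W ≠ H L + halfY L by omega)]
          split_ifs
          · rcases hj with rfl | rfl <;> simp
          · rfl) (Nat.zero_le _) a
    have high : ∀ Z, H L + halfY L + 1 ≤ Z → Z ≤ side L - 1 →
        (tile L c o P X Z).fin.vb j = false := fun Z a b => by
      refine (const_seg (f := fun Z => (tile L c o P X Z).fin.vb j) (hi := side L - 1)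
        (fun W w1 w2 => ?_) a b).trans ?_
      · show (tile L c o P X (W + 1)).fin.vb j = _
        rw [step W (by omega), if_neg (show W ≠ H L + halfY L by omega),
          if_neg (show W ≠ 0 by omega)]
      · show (tile L c o P X (H L + halfY L + 1)).fin.vb j = false
        rw [step _ (by omega), if_pos rfl]
        rcases hj with rfl | rfl <;> simp
    rw [if_neg (by simpa using ho)]
    split_ifs with h0
    · rw [key Y h0, key Y₀ h2]
    · exact high Y (by omega) (by omega)

/-- The bundle column and the wire row of the bit `k`, within a quarter. -/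
lemma cross_facts (hL : L₀ ≤ L) {k : ℕ} (hk : 2 * k < M L) :
    (IsBundle L (M L + 2 * k) ∧ lo L (M L + 2 * k) = 2 * k) ∧
    (IsWire L (k * M L ^ 2 + M L) ∧ hi L (k * M L ^ 2 + M L) = k) ∧
    1 ≤ M L + 2 * k ∧ M L + 2 * k ≤ cutX L ∧
    1 ≤ k * M L ^ 2 + M L ∧ k * M L ^ 2 + M L ≤ halfY L := by
  have hM := eight_lt_M hL
  obtain ⟨a1, a2, a3⟩ := coord_of (L := L) (a := 0) (show 1 < M L by omega) hk
  obtain ⟨b1, b2, b3⟩ := coord_of (L := L) (a := k) (show 1 < M L by omega) (M_pos L)
  simp only [mul_zero, zero_add, mul_one, add_zero] at a1 a2 a3 b1 b2 b3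
  rw [Nat.mul_comm (M L ^ 2) k] at b1 b2 b3
  refine ⟨⟨⟨⟨a1, a2⟩, by rw [a3]; omega⟩, a3⟩, ⟨⟨b3, b2⟩, b1⟩, by omega, ?_, by omega, ?_⟩
  · unfold cutX; omega
  · have h : k * M L ^ 2 ≤ M L / 2 * M L ^ 2 := Nat.mul_le_mul_right _ (by omega)
    unfold halfY
    omega

include hL hc hA in
/-- The four crossings show the quadruple of the parents. -/
lemma crossing (P : V) {k : ℕ} (hk : 2 * k < M L) {a b : ℕ} (ha : a = 0 ∨ a = H L)
    (hb : b = 0 ∨ b = H L) (j : Fin 4) :
    (tile L c o P (a + (M L + 2 * k)) (b + (k * M L ^ 2 + M L))).fin.h j =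
        bitQuad L c o P k j ∧
      (tile L c o P (a + (M L + 2 * k)) (b + (k * M L ^ 2 + M L))).fin.vb j =
        bitQuad L c o P k j := by
  obtain ⟨hB, hW, hx1, hx2, hy1, hy2⟩ := cross_facts hL hk
  obtain ⟨hc1, hc2, -, -⟩ := sizes hL
  have hs := side_eq L
  set x := M L + 2 * k with hx
  set y := k * M L ^ 2 + M L with hy
  have mx : ∀ {a}, (a = 0 ∨ a = H L) → (a + x) % H L = x ∧ a + x < side L ∧ 1 ≤ a + x ∧
      a + x ≤ H L + cutX L := by
    rintro a (rfl | rfl)
    · rw [Nat.zero_add, Nat.mod_eq_of_lt (by omega)]; omega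
    · rw [Nat.add_mod_left, Nat.mod_eq_of_lt (by omega)]; omega
  have my : ∀ {b}, (b = 0 ∨ b = H L) → (b + y) % H L = y ∧ b + y < side L ∧ 1 ≤ b + y ∧
      b + y ≤ H L + halfY L := by
    rintro b (rfl | rfl)
    · rw [Nat.zero_add, Nat.mod_eq_of_lt (by omega)]; omega
    · rw [Nat.add_mod_left, Nat.mod_eq_of_lt (by omega)]; omega
  have diag : ∀ (P : V) {a b}, (a = 0 ∨ a = H L) → (b = 0 ∨ b = H L) →
      (tile L c o P (a + x) (b + y)).fin.h = (tile L c o P (a + x) (b + y)).fin.vb := by
    intro P a b ha hb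
    obtain ⟨ex, hX, -, -⟩ := mx ha
    obtain ⟨ey, hY, -, -⟩ := my hb
    have hp : PFacts (cell L (tile L c o P (a + x) (b + y))) := (Grid.one hc _).1
    obtain ⟨t1, -, -, -⟩ := fields hA P hX hY
    refine hp.diag ?_ ?_ ?_
    · show (claims L _).isWire = true
      rw [t1]; exact (claims_wire L _ _ _ _).2 (by rw [ey]; exact hW.1)
    · show (claims L _).bundle = true
      rw [t1]; exact (claims_bundle L _ _ _ _).2 (by rw [ex]; exact hB.1)
    · show (claims L _).cm.diag = true
      rw [t1]
      refine (claims_diag L _ _ _ _ (by rw [ex]; exact hB.1)).2 ?_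
      rw [ex, ey, hB.2, hW.2]
  have rowEq : ∀ (P : V) {a b}, (a = 0 ∨ a = H L) → (b = 0 ∨ b = H L) → ∀ j,
      (tile L c o P (a + x) (b + y)).fin.h j = (tile L c o P (0 + x) (b + y)).fin.h j := by
    intro P a b ha hb j
    obtain ⟨-, hX, l1, l2⟩ := mx ha
    obtain ⟨-, hX0, k1, k2⟩ := mx (a := 0) (Or.inl rfl)
    obtain ⟨ey, hY, -, -⟩ := my hb
    rw [row_shown hL hc hA P hX hY (by rw [ey]; exact hW.1) k1 k2 j, shown]
    split_ifs <;> first | rfl | omega
  have colEq : ∀ (P : V) {a b}, (a = 0 ∨ a = H L) → (b = 0 ∨ b = H L) → ∀ j,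
      (tile L c o P (a + x) (b + y)).fin.vb j = (tile L c o P (a + x) (0 + y)).fin.vb j := by
    intro P a b ha hb j
    obtain ⟨ex, hX, -, -⟩ := mx ha
    obtain ⟨-, hY, l1, l2⟩ := my hb
    obtain ⟨-, hY0, k1, k2⟩ := my (b := 0) (Or.inl rfl)
    rw [col_shown hL hc hA P hX hY (by rw [ex]; exact hB.1) k1 k2 j, shown]
    split_ifs <;> first | rfl | omega
  set q : V → Quad := fun P => (tile L c o P (0 + x) (0 + y)).fin.h
  have all : ∀ (P : V) {a b}, (a = 0 ∨ a = H L) → (b = 0 ∨ b = H L) →
      (tile L c o P (a + x) (b + y)).fin.h = q P := by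
    intro P a b ha hb
    funext j
    rw [congrFun (diag P ha hb) j, colEq P ha hb j, ← congrFun (diag P ha (Or.inl rfl)) j,
      rowEq P ha (Or.inl rfl) j]
  obtain ⟨ex, hX, x1, x2⟩ := mx (a := 0) (Or.inl rfl)
  obtain ⟨ey, hY, y1, y2⟩ := my (b := 0) (Or.inl rfl)
  have own : ∀ P, q P 0 = bitAt L c o P k := by
    intro P
    simp only [bitAt, q, Nat.zero_add, x, y, tile]
    split_ifs with hl
    · rfl
    · have hp : PFacts (cell L (tile L c o P (0 + x) (0 + y))) := (Grid.one hc _).1
      obtain ⟨-, -, -, t4⟩ := fields hA P hX hY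
      have hlive : (tile L c o P (0 + x) (0 + y)).fin.live = false := by
        rw [t4, ey]
        exact decide_eq_false fun h => hl (hW.2 ▸ h.2)
      have := hp.h_zero hlive 0
      simpa [tile, x, y] using this
  have g1 : ∀ P, q P 1 = q (P - (1, 0)) 0 ∧ q P 3 = q (P - (1, 0)) 2 := by
    intro P
    have hw : IsWire L ((0 + y) % H L) := by rw [ey]; exact hW.1
    have h0 := (row hL hc hA P hX hY hw).2
    have e : ∀ j : Fin 4, q P j = shown (H L + cutX L) (decide (j = 0 ∨ j = 2)) (0 + x) (q P j) :=
      fun j => row_shown hL hc hA P hX hY hw x1 x2 j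
    have z : ∀ j : Fin 4, (tile L c o P 0 (0 + y)).fin.h j =
        shown (H L + cutX L) (decide (j = 0 ∨ j = 2)) 0 (q P j) := fun j =>
      row_shown hL hc hA P (by omega) hY hw x1 x2 j
    have last : ∀ j : Fin 4, (tile L c o (P - (1, 0)) (side L - 1) (0 + y)).fin.h j =
        shown (H L + cutX L) (decide (j = 0 ∨ j = 2)) (side L - 1) (q (P - (1, 0)) j) := fun j =>
      row_shown hL hc hA (P - (1, 0)) (by omega) hY hw x1 x2 j
    have z1 := z 1
    have z3 := z 3
    have l0 := last 0
    have l2 := last 2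
    rw [h0] at z1 z3
    simp [shown, show side L - 1 ≠ 0 by omega] at z1 z3 l0 l2
    exact ⟨z1.symm.trans l0, z3.symm.trans l2⟩
  have g2 : ∀ P, q P 2 = q (P - (0, 1)) 0 := by
    intro P
    have hv : ∀ P, q P = (tile L c o P (0 + x) (0 + y)).fin.vb := fun P =>
      diag P (Or.inl rfl) (Or.inl rfl)
    have hb' : IsBundle L ((0 + x) % H L) := by rw [ex]; exact hB.1
    have h0 := (col hL hc hA P hX hY hb').2
    have z := col_shown hL hc hA P hX (show 0 < side L by omega) hb' y1 y2 2
    have l := col_shown hL hc hA (P - (0, 1)) hX (show side L - 1 < side L by omega) hb' y1 y2 0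
    rw [h0, ← hv] at z
    rw [← hv] at l
    simp [shown, show side L - 1 ≠ 0 by omega] at z l
    exact z.symm.trans l
  have quad : ∀ j, q P j = bitQuad L c o P k j := by
    intro j
    show q P j = bitAt L c o (P - dir j) k
    fin_cases j
    · show q P 0 = bitAt L c o (P - 0) k
      rw [own, sub_zero]
    · show q P 1 = bitAt L c o (P - (1, 0)) k
      rw [(g1 P).1, own]
    · show q P 2 = bitAt L c o (P - (0, 1)) k
      rw [g2, own]
    · show q P 3 = bitAt L c o (P - (1, 1)) k
      rw [(g1 P).2, g2, own, sub_sub]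
      rfl
  refine ⟨by rw [all P ha hb]; exact quad j, ?_⟩
  rw [← congrFun (diag P ha hb) j, all P ha hb]
  exact quad j

include hL hc hA in
lemma h_eq (P : V) {X Y : ℕ} (hX : X < side L) (hY : Y < side L) :
    (tile L c o P X Y).fin.h =
      (child L (fun _ => false) (bitQuad L c o P) X Y).fin.h := by
  funext j
  rw [child_h]
  have hp : PFacts (cell L (tile L c o P X Y)) := (Grid.one hc _).1
  obtain ⟨-, -, -, t4⟩ := fields hA P hX hY
  by_cases hl : IsLive L (Y % H L)
  swap
  · rw [if_neg fun h => hl ⟨h.1, h.2.1⟩]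
    exact hp.h_zero (by show (tile L c o P X Y).fin.live = false; rw [t4]; simp [hl]) j
  obtain ⟨hw, hk⟩ := hl
  have hkM : 2 * hi L (Y % H L) < M L := by have := lastK_bound hL; omega
  obtain ⟨-, -, hx1, hx2, -, -⟩ := cross_facts hL hkM
  obtain ⟨hc1, -, hc0, -⟩ := sizes hL
  obtain ⟨b, hb, hYb⟩ : ∃ b, (b = 0 ∨ b = H L) ∧
      Y = b + (hi L (Y % H L) * M L ^ 2 + M L) := by
    have e := coord_eq L (Y % H L)
    rw [hw.1, hw.2, mul_one, add_zero, Nat.mul_comm] at e
    rcases half_cases hY with ⟨-, h⟩ | ⟨-, h⟩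
    · exact ⟨0, Or.inl rfl, by omega⟩
    · exact ⟨H L, Or.inr rfl, by omega⟩
  have hs := side_eq L
  rw [row_shown hL hc hA P hX hY hw (X₀ := 0 + (M L + 2 * hi L (Y % H L))) (by omega) (by omega) j,
    show (tile L c o P (0 + (M L + 2 * hi L (Y % H L))) Y).fin.h j =
      bitQuad L c o P (hi L (Y % H L)) j by
      have h := (crossing hL hc hA P hkM (a := 0) (Or.inl rfl) hb j).1
      rw [← hYb] at h
      exact h]
  unfold shown
  rcases half_cases hX with ⟨h1, h2⟩ | ⟨h1, h2⟩
  · simp only [h1, decide_false, Bool.false_eq_true, false_implies, and_true, h2, hw, hk, true_and,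
      decide_eq_true_eq]
    by_cases ho : j = 0 ∨ j = 2
    · rw [if_pos ho]
      have hn : ¬ (j = 1 ∨ j = 3) := by rcases ho with rfl | rfl <;> decide
      by_cases h0 : X = 0
      · rw [if_pos h0, if_neg (fun h => hn (h h0 trivial))]
      · rw [if_neg h0, if_pos (fun h => absurd h h0)]
    · rw [if_neg ho, if_pos (by omega)]
      have hj : j = 1 ∨ j = 3 :=
        (by decide : ∀ j : Fin 4, ¬ (j = 0 ∨ j = 2) → j = 1 ∨ j = 3) j ho
      rw [if_pos (fun _ _ => hj)]
  · simp only [h1, decide_true, Bool.true_eq_false, false_implies, implies_true, true_implies, hw,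
      hk, true_and, decide_eq_true_eq]
    by_cases ho : j = 0 ∨ j = 2
    · rw [if_pos ho, if_neg (show X ≠ 0 by omega), if_pos (fun _ => ho)]
    · rw [if_neg ho]
      by_cases hle : X ≤ H L + cutX L
      · rw [if_pos hle, if_pos (fun h => by omega)]
      · rw [if_neg hle, if_neg (fun h => ho (h (by omega)))]

include hL hc hA in
lemma vb_eq (P : V) {X Y : ℕ} (hX : X < side L) (hY : Y < side L) :
    (tile L c o P X Y).fin.vb =
      (child L (fun _ => false) (bitQuad L c o P) X Y).fin.vb := by
  funext j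
  rw [child_vb]
  have hp : PFacts (cell L (tile L c o P X Y)) := (Grid.one hc _).1
  obtain ⟨t1, -, -, -⟩ := fields hA P hX hY
  by_cases hbd : IsBundle L (X % H L)
  swap
  · rw [if_neg fun h => hbd h.1]
    refine hp.vb_zero ?_ j
    show (claims L _).bundle = false
    rw [t1, Bool.eq_false_iff]
    exact fun h => hbd ((claims_bundle L _ _ _ _).1 h)
  set k := lo L (X % H L) / 2 with hk
  have hlo : lo L (X % H L) = 2 * k := by
    have := hbd.2
    omega
  have hkM : 2 * k < M L := by
    have : lo L (X % H L) < M L := Nat.mod_lt _ (M_pos L)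
    omega
  obtain ⟨-, -, -, -, hy1, hy2⟩ := cross_facts hL hkM
  obtain ⟨-, hc1, -, hc0⟩ := sizes hL
  obtain ⟨a, ha, hXa⟩ : ∃ a, (a = 0 ∨ a = H L) ∧ X = a + (M L + 2 * k) := by
    have e := coord_eq L (X % H L)
    rw [hbd.1.1, hbd.1.2, mul_zero, zero_add, mul_one, hlo] at e
    rcases half_cases hX with ⟨-, h⟩ | ⟨-, h⟩
    · exact ⟨0, Or.inl rfl, by omega⟩
    · exact ⟨H L, Or.inr rfl, by omega⟩
  have hs := side_eq L
  rw [col_shown hL hc hA P hX hY hbd (Y₀ := 0 + (k * M L ^ 2 + M L)) (by omega) (by omega) j,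
    show (tile L c o P X (0 + (k * M L ^ 2 + M L))).fin.vb j = bitQuad L c o P k j by
      have h := (crossing hL hc hA P hkM ha (b := 0) (Or.inl rfl) j).2
      rw [← hXa] at h
      exact h]
  by_cases hkl : k ≤ lastK L
  swap
  · rw [if_neg fun h => hkl h.2.1]
    simp [shown, bitQuad, bitAt, hkl]
  unfold shown
  rcases half_cases hY with ⟨h1, h2⟩ | ⟨h1, h2⟩
  · simp only [h1, decide_false, Bool.false_eq_true, false_implies, and_true, h2, hbd, hkl,
      true_and, decide_eq_true_eq]
    by_cases ho : j = 0 ∨ j = 1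
    · rw [if_pos ho]
      have hn : ¬ (j = 2 ∨ j = 3) := by rcases ho with rfl | rfl <;> decide
      by_cases h0 : Y = 0
      · rw [if_pos h0, if_neg (fun h => hn (h h0 trivial))]
      · rw [if_neg h0, if_pos (fun h => absurd h h0)]
    · rw [if_neg ho, if_pos (by omega)]
      have hj : j = 2 ∨ j = 3 :=
        (by decide : ∀ j : Fin 4, ¬ (j = 0 ∨ j = 1) → j = 2 ∨ j = 3) j ho
      rw [if_pos (fun _ _ => hj)]
  · simp only [h1, decide_true, Bool.true_eq_false, false_implies, implies_true, true_implies, hbd,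
      hkl, true_and, decide_eq_true_eq]
    by_cases ho : j = 0 ∨ j = 1
    · rw [if_pos ho, if_neg (show Y ≠ 0 by omega), if_pos (fun _ => ho)]
    · rw [if_neg ho]
      by_cases hle : Y ≤ H L + halfY L
      · rw [if_pos hle, if_pos (fun h => by omega)]
      · rw [if_neg hle, if_neg (fun h => ho (h (by omega)))]

end Shown

/-- In an aligned valid tiling the shown bits are those of the parents. -/
theorem bitsStatement : BitsStatement := fun _ hL _ hc _ _ hA P _ _ hX hY =>
  ⟨Shown.h_eq hL hc hA P hX hY, Shown.vb_eq hL hc hA P hX hY⟩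

end Vale.Agent.P196.Tile
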