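import Vale.Agent.P196.Tile.Facts.Shape

/-!
P196, module D: the pieces of desubstitution.

A valid tiling is first aligned with a grid of parents (numbers, halves, rows in use); then all
shown bits are those of a family of parent bits, read at the crossings of the lower left quarters.
-/

namespace Vale.Agent.P196.Tile

/-- The child at a position of a parent without bits. -/
noncomputable def shell (L X Y : ℕ) : St := child L (fun _ => false) (fun _ _ => false) X Y

/-- The fields of a child which do not depend on the bits of the parents. -/
def SameShell (t t' : St) : Prop :=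
  t.xk = t'.xk ∧ t.x = t'.x ∧ t.y = t'.y ∧ t.u = t'.u ∧
    t.fin.qx = t'.fin.qx ∧ t.fin.qy = t'.fin.qy ∧ t.fin.live = t'.fin.live

/-- The grid of parents with corner `o` explains positions, halves and rows in use. -/
def Aligned (L : ℕ) (c : V → St) (o : V) : Prop :=
  ∀ (P : V) (X Y : ℕ), X < side L → Y < side L →
    SameShell (c (place L o P X Y)) (shell L X Y)

/-- The bit `k` of the parent `P`: read where its wire meets its bundle column. -/
def bitAt (L : ℕ) (c : V → St) (o P : V) (k : ℕ) : Bool :=
  if k ≤ lastK L then (c (place L o P (M L + 2 * k) (k * M L ^ 2 + M L))).fin.h 0 else false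

/-- The bits seen by the children of `P`. -/
def bitQuad (L : ℕ) (c : V → St) (o P : V) : ℕ → Quad := fun k j => bitAt L c o (P - dir j) k

/-- The shown bits are those of the parents. -/
def BitsOK (L : ℕ) (c : V → St) (o : V) : Prop :=
  ∀ (P : V) (X Y : ℕ), X < side L → Y < side L →
    (c (place L o P X Y)).fin.h =
        (child L (fun _ => false) (bitQuad L c o P) X Y).fin.h ∧
      (c (place L o P X Y)).fin.vb =
        (child L (fun _ => false) (bitQuad L c o P) X Y).fin.vb

/-- A valid tiling has exactly one grid of parents. -/
def AlignStatement : Prop :=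
  ∀ L, L₀ ≤ L → ∀ c, ValidTiling L c → ∃! o : V, IsOffset L o ∧ Aligned L c o

/-- In an aligned valid tiling the shown bits are those of the parents. -/
def BitsStatement : Prop :=
  ∀ L, L₀ ≤ L → ∀ c, ValidTiling L c → ∀ o, IsOffset L o → Aligned L c o → BitsOK L c o

end Vale.Agent.P196.Tile
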