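import Vale.Agent.P196.Tile.Desub.CornerOK
import Vale.Agent.P196.Tile.Desub.Defs

/-!
P196, module D: desubstitution from the alignment and the shown bits.

The corners give a valid tiling of parents; the columns are recursions, hence those of the children;
and the bits of a state determine it.
-/

namespace Vale.Agent.P196.Tile

open ChildRules

namespace Desub

variable {L : ℕ} {c : V → St} {o : V}

lemma place_add (L : ℕ) (o P : V) (X Y i j : ℕ) :
    place L o P X Y + ((i : ℤ), (j : ℤ)) = place L o P (X + i) (Y + j) := by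
  ext <;> simp [place] <;> ring

lemma small_lt_side (hL : L₀ ≤ L) {i : ℕ} (h : i ≤ 7 * M L) : i < side L := by
  have := (Corner.band_small hL h).2.2
  unfold side
  omega

lemma cornerH_lt_side (hL : L₀ ≤ L) {j : ℕ} (h : j ≤ cornerH L) : j < side L := by
  have := (Corner.cornerH_lt hL).1
  unfold side
  omega

/-- The lower left corner of every parent is a corner. -/
lemma corner (hL : L₀ ≤ L) (hv : ValidTiling L c) (ha : Aligned L c o) (P : V) :
    Corner L c (place L o P 0 0) := by
  obtain ⟨-, hx, hy, -⟩ := ha P 0 0 (small_lt_side hL (Nat.zero_le _))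
    (small_lt_side hL (Nat.zero_le _))
  refine ⟨fun i j _ _ _ _ => (validTiling_iff L c).1 hv _, ?_, ?_⟩
  · rw [hy]
    exact Nat.zero_mod _
  · rw [hx, shell, child_x]
    split_ifs <;> simp

lemma bits_corner (hL : L₀ ≤ L) (hb : BitsOK L c o) (P : V) :
    Corner.bits L c (place L o P 0 0) = bitQuad L c o P := by
  funext k j
  by_cases hk : k ≤ lastK L
  swap
  · simp [Corner.bits, bitQuad, bitAt, hk]
  have hkb := lastK_bound hL
  have hx : M L + 2 * k ≤ 7 * M L := by omega
  have hy : Corner.wireY L k ≤ cornerH L := Corner.wireY_le (by omega)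
  rw [Corner.bits, if_pos hk]
  show (c (place L o P 0 0 + (((M L + 2 * k : ℕ) : ℤ), ((Corner.wireY L k : ℕ) : ℤ)))).fin.h j = _
  rw [place_add, Nat.zero_add, Nat.zero_add,
    (hb P _ _ (small_lt_side hL hx) (cornerH_lt_side hL hy)).1, child_h]
  obtain ⟨m1, m2, mx, -⟩ := Corner.mods hL hx hy
  obtain ⟨hw, hk'⟩ := Corner.wireY_spec hL k
  rw [m1, m2, if_pos ⟨hw, by omega, fun e => by have := M_pos L; omega,
    fun e => absurd e (by simp [mx])⟩, hk']

/-- The signature shown by the corner of a parent. -/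
lemma exists_sig (hL : L₀ ≤ L) (hv : ValidTiling L c) (ha : Aligned L c o) (hb : BitsOK L c o)
    (P : V) :
    ∃ s : Sig, InS s ∧ s 0 = cell (L + 1) (decodeSt L (bitQuad L c o P) 0 (s 0)) ∧
      (∀ k < A, ∀ j, finBits (s j) k = bitQuad L c o P k j) ∧
      (∀ i, i ≤ L → ∀ j, bitQuad L c o P (A + 8 * i + 7) j = false) ∧
      QuadOK (L + 1) fun j => decodeSt L (bitQuad L c o P) j (s j) := by
  have h := Corner.corner_ok hL (corner hL hv ha P)
  rwa [bits_corner hL hb P] at h

lemma dir_zero : dir 0 = 0 := by simp [dir]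

lemma bitQuad_zero (P : V) (k : ℕ) (j : Fin 4) :
    bitQuad L c o P k j = bitQuad L c o (P - dir j) k 0 := by
  simp [bitQuad, dir_zero]

/-- The parents. -/
theorem parents (hL : L₀ ≤ L) (hv : ValidTiling L c) (ha : Aligned L c o) (hb : BitsOK L c o) :
    ∃ c' : V → St, ValidTiling (L + 1) c' ∧
      ∀ P, quadBits (L + 1) (quadAt c' P) = bitQuad L c o P := by
  choose s hinS hcl hfin hspare hok using exists_sig hL hv ha hb
  set c' : V → St := fun Q => decodeSt L (bitQuad L c o Q) 0 (s Q 0) with hc'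
  have hs : ∀ P j, s P j = s (P - dir j) 0 := fun P j => finBits_inj fun k hk => by
    rw [hfin P k hk j, bitQuad_zero, ← hfin (P - dir j) k hk 0]
  have hq : ∀ P, quadAt c' P = fun j => decodeSt L (bitQuad L c o P) j (s P j) := fun P => by
    funext j
    have hn : ∀ τ, numOf L (bitQuad L c o (P - dir j)) 0 τ = numOf L (bitQuad L c o P) j τ :=
      fun τ => by simp only [numOf, ← bitQuad_zero]
    simp only [quadAt, hc', decodeSt, hn, ← hs]
  have hcell : ∀ P, s P 0 = cell (L + 1) (c' P) ∧ Scanning.Bounded (L + 1) (c' P) ∧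
      ((c' P).xk = false → (c' P).x = 0) ∧
      ((claims (L + 1) (c' P)).zone = true →
        (c' P).fin.v = table (lo (L + 1) (c' P).x)) := fun P => by
    obtain ⟨s', -, -, -, h3, h4, -, -, -, h5⟩ := hok P
    exact ⟨hcl P, h3 0, h4, h5⟩
  refine ⟨c', (validTiling_iff _ _).2 fun P => ?_, fun P => ?_⟩
  · have hsig : sig (L + 1) (quadAt c' P) = s P := funext fun j => by
      rw [hs P j, (hcell (P - dir j)).1]
      rfl
    have hin : InS (s P) := hinS P
    have rel : ∀ Q, VertNum (L + 1) (c' Q) (c' (Q - dir 2)) ∧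
        HorNum (L + 1) (c' Q) (c' (Q - dir 1)) ∧
        CounterNum (L + 1) (c' Q) (c' (Q - dir 2)) := fun Q => by
      obtain ⟨-, -, -, -, -, -, hV, hH, hC, -⟩ := hok Q
      have e0 : quadAt c' Q 0 = c' Q := by simp [quadAt, dir_zero]
      have e := hq Q
      rw [← e] at hV hH hC
      rw [e0] at hV hH hC
      exact ⟨hV, hH, hC⟩
    have d13 : P - dir 1 - dir 2 = P - dir 3 := by simp [dir]; abel
    have d23 : P - dir 2 - dir 1 = P - dir 3 := by simp [dir]; abel
    have e0 : quadAt c' P 0 = c' P := by simp [quadAt, dir_zero]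
    refine ⟨⟨fun j => ?_, ?_, ?_, ?_, ?_, ?_, ?_, hsig.symm ▸ hin⟩, fun j => (hcell (P - dir j)).2.2.2⟩
    · obtain ⟨-, hb', hx, -⟩ := hcell (P - dir j)
      exact ⟨hb'.1, hb'.2.1, hb'.2.2, hx⟩
    · rw [e0]; exact (rel P).1
    · have := (rel (P - dir 1)).1; rwa [d13] at this
    · rw [e0]; exact (rel P).2.1
    · have := (rel (P - dir 2)).2.1; rwa [d23] at this
    · rw [e0]; exact (rel P).2.2
    · have := (rel (P - dir 1)).2.2; rwa [d13] at this
  · funext k j
    show enc (L + 1) (c' (P - dir j)) k = _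
    rw [bitQuad_zero]
    set Q := P - dir j
    unfold enc
    by_cases hk : k < A
    · rw [if_pos hk, ← hfin Q k hk 0, (hcell Q).1]
    · rw [if_neg hk]
      by_cases hi : (k - A) / 8 < L + 1
      · rw [decide_eq_true hi, Bool.true_and]
        refine Eq.trans (Decode.testBit_num L _ 0 (s Q 0) (fun i hi => hspare Q i hi 0)
          (Nat.lt_succ_iff.1 hi) (Nat.mod_lt _ (by norm_num))).symm ?_
        rw [show A + 8 * ((k - A) / 8) + (k - A) % 8 = k by omega]
      · rw [decide_eq_false hi, Bool.false_and]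
        simp only [bitQuad, bitAt]
        rw [if_neg (by unfold lastK; omega)]

end Desub

end Vale.Agent.P196.Tile
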