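import Vale.Agent.P196.Tile.Facts.Shape

/-!
P196, module D: in the lower left corner of a quarter all states are those of children.

A corner is a valid patch with `x = y = 0` at its origin, `7*M` columns wide and reaching above the
last wire row in use. Inside it the numbers are the positions, a wire row shows one quadruple of
bits, and the scanning column and the table columns are in the states computed from these bits.
-/

namespace Vale.Agent.P196.Tile

open ChildRules

/-- The height of a corner. -/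
def cornerH (L : ℕ) : ℕ := M L + (lastK L + 1) * M L ^ 2

/-- A valid patch at the lower left of a quarter with origin `o`. -/
structure Corner (L : ℕ) (c : V → St) (o : V) : Prop where
  valid : ∀ i j : ℕ, 1 ≤ i → i ≤ 7 * M L → 1 ≤ j → j ≤ cornerH L →
    Valid L (quadAt c (o + ((i : ℤ), (j : ℤ))))
  y_zero : (c o).y = 0
  x_zero : (c o).x = 0

/-- The claim of the row `0`. -/
lemma isY0_iff (L : ℕ) (t : St) : (claims L t).isY0 = true ↔ t.y = 0 := by
  have hY : (0 : ℕ) < YB := by unfold YB; omega
  rw [y_eq_zero_iff L t.y]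
  simp only [Claims.isY0, Bool.and_eq_true, decide_eq_true_iff, and_assoc]
  simp only [claims, decide_eq_true_iff]
  refine and_congr Iff.rfl (and_congr ?_ ?_) <;> omega

namespace Corner

/-- The tile of a corner at a position. -/
def at' (c : V → St) (o : V) (i j : ℕ) : St := c (o + ((i : ℤ), (j : ℤ)))

lemma quad_eq (c : V → St) (o : V) (i j : ℕ) :
    quadAt c (o + (((i + 1 : ℕ) : ℤ), ((j + 1 : ℕ) : ℤ))) =
      ![at' c o (i + 1) (j + 1), at' c o i (j + 1), at' c o (i + 1) j, at' c o i j] := by
  funext k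
  fin_cases k <;> simp [quadAt, at', dir] <;> congr 1 <;> ext <;> simp <;> ring

variable {L : ℕ} {c : V → St} {o : V}

/-- The rules of a window of a corner. -/
lemma window (hc : Corner L c o) {i j : ℕ} (hi : i + 1 ≤ 7 * M L) (hj : j + 1 ≤ cornerH L) :
    Rule L ![at' c o (i + 1) (j + 1), at' c o i (j + 1), at' c o (i + 1) j, at' c o i j] ∧
      WFacts (sig L ![at' c o (i + 1) (j + 1), at' c o i (j + 1), at' c o (i + 1) j,
        at' c o i j]) := by
  have h := (hc.valid (i + 1) (j + 1) (by omega) hi (by omega) hj).1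
  rw [quad_eq] at h
  exact ⟨h, shape_facts h.2.2.2.2.2.2.2.1⟩

lemma one_le_cornerH (L : ℕ) : 1 ≤ cornerH L := by
  have := M_pos L
  unfold cornerH
  omega

lemma pfacts (hc : Corner L c o) {i j : ℕ} (hi : i ≤ 7 * M L) (hj : j ≤ cornerH L) :
    PFacts (cell L (at' c o i j)) := by
  have hM := M_pos L
  have h1 := one_le_cornerH L
  rcases i with _ | i <;> rcases j with _ | j
  · exact (hc.window (i := 0) (j := 0) (by omega) (by omega)).2.p 3
  · exact (hc.window (i := 0) (j := j) (by omega) hj).2.p 1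
  · exact (hc.window (i := i) (j := 0) hi (by omega)).2.p 2
  · exact (hc.window hi hj).2.p 0

lemma vert (hc : Corner L c o) {i j : ℕ} (hi : i ≤ 7 * M L) (hj : j + 1 ≤ cornerH L) :
    VFacts (cell L (at' c o i (j + 1))) (cell L (at' c o i j)) ∧
      VertNum L (at' c o i (j + 1)) (at' c o i j) ∧
      CounterNum L (at' c o i (j + 1)) (at' c o i j) := by
  have hM := M_pos L
  rcases i with _ | i
  · obtain ⟨h, f⟩ := hc.window (i := 0) (j := j) (by omega) hj
    exact ⟨f.v₁, h.2.2.1, h.2.2.2.2.2.2.1⟩
  · obtain ⟨h, f⟩ := hc.window hi hj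
    exact ⟨f.v₀, h.2.1, h.2.2.2.2.2.1⟩

lemma horiz (hc : Corner L c o) {i j : ℕ} (hi : i + 1 ≤ 7 * M L) (hj : j ≤ cornerH L) :
    HFacts (cell L (at' c o (i + 1) j)) (cell L (at' c o i j)) ∧
      HorNum L (at' c o (i + 1) j) (at' c o i j) := by
  have h1 := one_le_cornerH L
  rcases j with _ | j
  · obtain ⟨h, f⟩ := hc.window (i := i) (j := 0) hi (by omega)
    exact ⟨f.h₂, h.2.2.2.2.1⟩
  · obtain ⟨h, f⟩ := hc.window hi hj
    exact ⟨f.h₀, h.2.2.2.1⟩

lemma band_small {L i : ℕ} (hL : L₀ ≤ L) (hi' : i ≤ 7 * M L) :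
    hi L i = 0 ∧ mid L i ≤ 7 ∧ i < H L := by
  have hM := eight_lt_M hL
  have h2 : 8 * M L ≤ M L ^ 2 := by
    rw [sq]; exact Nat.mul_le_mul_right _ (by omega)
  have h3 : M L ^ 2 * 1 ≤ M L ^ 2 * M L := Nat.mul_le_mul_left _ (by omega)
  refine ⟨Nat.div_eq_of_lt (by omega), ?_, ?_⟩
  · calc i / M L % M L ≤ i / M L := Nat.mod_le _ _
      _ ≤ 7 := (Nat.div_le_iff_le_mul_add_pred (M_pos L)).2 (by rw [Nat.mul_comm (M L)]; omega)
  · rw [H, pow_succ]
    omega

lemma cornerH_lt {L : ℕ} (hL : L₀ ≤ L) : cornerH L < H L ∧ cornerH L < halfY L := by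
  have hM := eight_lt_M hL
  have hk := lastK_bound hL
  have h1 : (lastK L + 3) * M L ^ 2 ≤ M L / 2 * M L ^ 2 := Nat.mul_le_mul_right _ (by omega)
  rw [Nat.add_mul] at h1
  have h2 : M L / 2 * M L ^ 2 ≤ M L * M L ^ 2 := Nat.mul_le_mul_right _ (Nat.div_le_self _ _)
  have h4 := M_le_sq L
  unfold cornerH halfY
  rw [Nat.add_mul, one_mul, show H L = M L * M L ^ 2 by rw [H, ← pow_succ']]
  omega

/-- The positions are the numbers. -/
lemma pos (hL : L₀ ≤ L) (hc : Corner L c o) {i j : ℕ} (hi' : i ≤ 7 * M L) (hj : j ≤ cornerH L) :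
    (at' c o i j).xk = true ∧ (at' c o i j).x = i ∧ (at' c o i j).y = j := by
  induction j generalizing i with
  | zero =>
    have key : ∀ i, i ≤ 7 * M L → (at' c o i 0).y = 0 ∧ (at' c o i 0).xk = true := by
      intro i
      induction i with
      | zero =>
        intro h
        have hy : (at' c o 0 0).y = 0 := by
          simp only [at', Nat.cast_zero]
          rw [show o + ((0 : ℤ), (0 : ℤ)) = o by simp [Prod.ext_iff]]
          exact hc.y_zero
        exact ⟨hy, (hc.pfacts h (Nat.zero_le _)).y0_xk (by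
          simp [Claims.isY0, claims, hy, lo, mid, hi])⟩
      | succ i ih =>
        intro h
        obtain ⟨-, hn⟩ := hc.horiz h (Nat.zero_le _)
        have hy : (at' c o (i + 1) 0).y = 0 := hn.1.trans (ih (by omega)).1
        exact ⟨hy, (hc.pfacts h (Nat.zero_le _)).y0_xk (by
          simp [Claims.isY0, claims, hy, lo, mid, hi])⟩
    refine ⟨(key i hi').2, ?_, (key i hi').1⟩
    induction i with
    | zero =>
      simp only [at', Nat.cast_zero]
      rw [show o + ((0 : ℤ), (0 : ℤ)) = o by simp [Prod.ext_iff]]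
      exact hc.x_zero
    | succ i ih =>
      obtain ⟨-, hn⟩ := hc.horiz hi' (Nat.zero_le _)
      rw [hn.2 (key _ hi').2 (key _ (by omega)).2, ih (by omega),
        Nat.mod_eq_of_lt (band_small hL hi').2.2]
  | succ j ih =>
    obtain ⟨h1, h2, h3⟩ := ih hi' (by omega)
    obtain ⟨hf, hn, -⟩ := hc.vert hi' hj
    have hy : (at' c o i (j + 1)).y = j + 1 := by
      rw [hn.1, h3, Nat.mod_eq_of_lt (by have := (cornerH_lt hL).1; omega)]
    have hxk : (at' c o i (j + 1)).xk = true := by
      have hy0 : (claims L (at' c o i (j + 1))).isY0 = false := by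
        rw [Bool.eq_false_iff]
        intro h0
        exact Nat.succ_ne_zero j (hy.symm.trans ((isY0_iff L (at' c o i (j + 1))).1 h0))
      have := hf.xk hy0
      refine this.trans ?_
      have hb := band_small hL hi'
      have e1 : (claims L (at' c o i j)).xk = true := h1
      have e2 : (claims L (at' c o i j)).band = true := by
        simp only [Claims.band, Bool.and_eq_true, decide_eq_true_iff]
        simp only [claims, decide_eq_true_iff, h2]
        exact ⟨hb.1, by omega⟩
      simp [e1, e2]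
    exact ⟨hxk, (hn.2 hxk h1).trans h2, hy⟩

end Corner

end Vale.Agent.P196.Tile
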