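import Vale.Agent.P196.Tile.Desub.Corner

/-!
P196, module D: in a corner the shown bits are one family of quadruples, and the columns compute.
-/

namespace Vale.Agent.P196.Tile.Corner

open ChildRules

/-- The bits read at the crossings of a corner. -/
def bits (L : ℕ) (c : V → St) (o : V) : ℕ → Quad := fun k =>
  if k ≤ lastK L then (at' c o (M L + 2 * k) (M L + k * M L ^ 2)).fin.h else fun _ => false

/-- The child expected at a position of a corner. -/
noncomputable def kid (L : ℕ) (b : ℕ → Quad) (i j : ℕ) : St := child L (fun _ => false) b i j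

variable {L : ℕ} {c : V → St} {o : V}

lemma mods (hL : L₀ ≤ L) {i j : ℕ} (hi' : i ≤ 7 * M L) (hj : j ≤ cornerH L) :
    i % H L = i ∧ j % H L = j ∧ ¬ H L ≤ i ∧ ¬ H L ≤ j ∧ knownX L i j = true ∧ i ≤ cutX L := by
  have h1 := band_small hL hi'
  have h2 := cornerH_lt hL
  refine ⟨Nat.mod_eq_of_lt h1.2.2, Nat.mod_eq_of_lt (by omega), by omega, by omega, ?_, ?_⟩
  · simp [knownX, h1.1, h1.2.1]
  · unfold cutX; omega

/-- The counter is determined by the numbers and the counter below. -/
lemma counterNum_det {T D T' D' : St} (h : CounterNum L T D) (h' : CounterNum L T' D')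
    (hk : T.xk = T'.xk) (hx : T.x = T'.x) (hy : T.y = T'.y)
    (hd : A ≤ min (hi L T.y) YB → D.u = D'.u) : T.u = T'.u := by
  unfold CounterNum at h h'
  have e1 : (claims L T).cx = (claims L T').cx := by simp only [claims, hx]
  have e2 : (claims L T).cy = (claims L T').cy := by simp only [claims, hy]
  have e3 : (claims L T).xk = (claims L T').xk := hk
  have e4 : (claims L T').cy.yhC.val = min (hi L T'.y) YB := rfl
  rw [hy] at hd
  simp only [e1, e2, e3, hy] at h h'
  generalize claims L T' = cl at h h' e4
  split_ifs at h h' with h1 h2 h3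
  · exact h.trans h'.symm
  · rw [h, h', hd]
    rw [Bool.and_eq_true, decide_eq_true_iff, e4] at h1
    exact h1.2
  · rw [h, h', hd]
    rw [Bool.and_eq_true, decide_eq_true_iff, e4] at h1
    exact h1.2
  · exact h.trans h'.symm

lemma u_eq (hL : L₀ ≤ L) (hc : Corner L c o) (b : ℕ → Quad) {i j : ℕ} (hi' : i ≤ 7 * M L)
    (h1 : 1 ≤ j) (hj : j ≤ cornerH L) : (at' c o i j).u = (kid L b i j).u := by
  induction j with
  | zero => omega
  | succ j ih =>
    obtain ⟨p1, p2, p3⟩ := hc.pos hL hi' hj
    obtain ⟨-, -, hu⟩ := hc.vert hi' hj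
    obtain ⟨m1, m2, -, -, mk, -⟩ := mods hL hi' hj
    obtain ⟨-, m2', -⟩ := mods hL hi' (show j ≤ cornerH L by omega)
    have hk : CounterNum L (kid L b i (j + 1)) (kid L b i j) :=
      counter_child hL _ b b i (j + 1) j (by rw [m2'])
    have hy : (kid L b i (j + 1)).y = j + 1 := m2
    have hx : (kid L b i (j + 1)).x = i := by simp only [kid, child_x, m1, m2, mk, if_true]
    have hxk : (kid L b i (j + 1)).xk = true := by
      rw [← mk]; simp only [kid, child, m1, m2]
    refine counterNum_det hu hk (p1.trans hxk.symm) (p2.trans hx.symm) (p3.trans hy.symm)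
      fun hA => ?_
    rw [p3] at hA
    rcases Nat.eq_zero_or_pos j with rfl | hp
    · exfalso
      have hM := eight_lt_M hL
      have hhi : hi L (0 + 1) = 0 := Nat.div_eq_of_lt (Nat.one_lt_pow two_ne_zero (by omega))
      have hA' : A = 1024 := rfl
      omega
    · exact ih hp (by omega)

lemma claims_eq (hL : L₀ ≤ L) (hc : Corner L c o) (b : ℕ → Quad) {i j : ℕ} (hi' : i ≤ 7 * M L)
    (h1 : 1 ≤ j) (hj : j ≤ cornerH L) :
    claims L (at' c o i j) = claims L (kid L b i j) := by
  obtain ⟨p1, p2, p3⟩ := hc.pos hL hi' hj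
  obtain ⟨m1, m2, -, -, mk, -⟩ := mods hL hi' hj
  have hu := u_eq hL hc b hi' h1 hj
  have hx : (kid L b i j).x = i := by simp only [kid, child_x, m1, m2, mk, if_true]
  have hy : (kid L b i j).y = j := m2
  have hxk : (kid L b i j).xk = true := by
    rw [← mk]; simp only [kid, child, m1, m2]
  simp only [claims, p1, p2, p3, hu, hx, hy, hxk]

/-- The rules of two expected children, one above the other. -/
lemma kid_vert (hL : L₀ ≤ L) (b : ℕ → Quad) {i j : ℕ} (hj : j + 1 ≤ cornerH L) :
    VFacts (cell L (kid L b i (j + 1))) (cell L (kid L b i j)) := by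
  have h1 := cornerH_lt hL
  have hs : j + 1 < side L := by unfold side; omega
  have h2 := childV (L := L) (τ := fun _ => false) (b := b) (b' := b) (X := i) hL hs
    ⟨fun _ => rfl, fun h => absurd h (Nat.succ_ne_zero j)⟩
  rwa [pred'_succ L (j + 1) hs (Nat.succ_ne_zero j)] at h2

lemma isSome_carryNext (t d : Claims) (dc dc' : Option Carry) (q q' : Quad)
    (h : dc.isSome = dc'.isSome) :
    (carryNext t d dc q).isSome = (carryNext t d dc' q').isSome := by
  unfold carryNext
  split_ifs <;> simp [h]

/-- Rows with low indices do not look down. -/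
lemma carryNext_first {t : Claims} (hw : t.isWire = true) (h0 : t.cy.yhC.val = 0) (d d' : Claims)
    (dc dc' : Option Carry) (q q' : Quad) : carryNext t d dc q = carryNext t d' dc' q' := by
  unfold carryNext
  have h : t.cy.yhC.val < AF := by rw [h0]; norm_num [AF]
  rw [if_pos hw, if_pos hw, if_pos h, if_pos h]

lemma first_wire (hL : L₀ ≤ L) (b : ℕ → Quad) (i : ℕ) (hj : M L ≤ cornerH L) :
    (claims L (kid L b i (M L))).isWire = true ∧ (claims L (kid L b i (M L))).cy.yhC.val = 0 := by
  have hy : (kid L b i (M L)).y = M L := Nat.mod_eq_of_lt (by have := (cornerH_lt hL).1; omega)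
  obtain ⟨e1, e2, e3⟩ := coord_of (L := L) (a := 0) (c := 1) (e := 0)
    (by have := eight_lt_M hL; omega) (M_pos L)
  simp only [mul_zero, mul_one, zero_add, add_zero] at e1 e2 e3
  refine ⟨?_, ?_⟩
  · simp only [Claims.isWire, Bool.and_eq_true, decide_eq_true_iff]
    simp only [claims, hy, decide_eq_true_iff]
    omega
  · simp only [claims, hy, e1, Nat.zero_min]

lemma carry_isSome (hL : L₀ ≤ L) (hc : Corner L c o) (b : ℕ → Quad) {i j : ℕ}
    (hi' : i ≤ 7 * M L) (h1 : M L ≤ j) (hj : j ≤ cornerH L) :
    (at' c o i j).fin.carry.isSome = (kid L b i j).fin.carry.isSome := by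
  induction j with
  | zero => exact absurd h1 (by have := M_pos L; omega)
  | succ j ih =>
    obtain ⟨hv, -, -⟩ := hc.vert hi' hj
    have hk := kid_vert hL b (i := i) hj
    have e1 : (at' c o i (j + 1)).fin.carry = carryNext (claims L (at' c o i (j + 1)))
      (claims L (at' c o i j)) (at' c o i j).fin.carry (at' c o i (j + 1)).fin.h := hv.carry
    have e2 : (kid L b i (j + 1)).fin.carry = carryNext (claims L (kid L b i (j + 1)))
      (claims L (kid L b i j)) (kid L b i j).fin.carry (kid L b i (j + 1)).fin.h := hk.carry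
    rw [e1, e2, claims_eq hL hc b hi' (by omega) hj]
    by_cases hM : M L ≤ j
    · rw [claims_eq hL hc b hi' (le_trans (M_pos L) hM) (by omega)]
      exact isSome_carryNext _ _ _ _ _ _ (ih hM (by omega))
    · obtain ⟨w1, w2⟩ := first_wire hL b i (by omega)
      rw [show j + 1 = M L by omega]
      exact congrArg Option.isSome (carryNext_first w1 w2 _ _ _ _ _ _)

lemma live_eq (hL : L₀ ≤ L) (hc : Corner L c o) {i j : ℕ} (hi' : i ≤ 7 * M L) (h1 : 1 ≤ j)
    (hj : j ≤ cornerH L) : (at' c o i j).fin.live = decide (IsLive L j) := by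
  obtain ⟨m1, m2, -⟩ := mods hL hi' hj
  have const : ∀ i', i' ≤ 7 * M L → (at' c o i' j).fin.live = (at' c o 0 j).fin.live := by
    intro i'
    induction i' with
    | zero => exact fun _ => rfl
    | succ i' ih => exact fun h => (hc.horiz h hj).1.live.trans (ih (by omega))
  by_cases hw : IsWire L j
  swap
  · rw [show decide (IsLive L j) = false by simp [IsLive, hw]]
    by_contra hne
    have := (hc.pfacts hi' hj).live_wire (by simpa using hne)
    simp only [claims_eq hL hc (fun _ _ => false) hi' h1 hj] at this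
    exact hw (m2 ▸ (claims_wire L _ _ i j).1 this)
  have hM := eight_lt_M hL
  have hi3 : 3 * M L ≤ 7 * M L := by omega
  obtain ⟨n1, n2, -⟩ := mods hL hi3 hj
  have hkid : (kid L (fun _ _ => false) (3 * M L) j).fin.live = decide (IsLive L j) := by
    simp only [kid, child_live, n2]
  rw [const i hi', ← const _ hi3, ← hkid]
  have hp := hc.pfacts hi3 hj
  have hp' := childP hL (fun _ => false) (fun _ _ => false) (3 * M L) j
  have hce := claims_eq hL hc (fun _ _ => false) hi3 h1 hj
  have hwire : (claims L (kid L (fun _ _ => false) (3 * M L) j)).isWire = true :=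
    (claims_wire L _ _ _ _).2 (n2.symm ▸ hw)
  by_cases hlow : (claims L (kid L (fun _ _ => false) (3 * M L) j)).cy.yhC.val < AF
  · exact (hp.live_low (show (claims L (at' c o (3 * M L) j)).isWire = true by
        rw [hce]; exact hwire)
      (show (claims L (at' c o (3 * M L) j)).cy.yhC.val < AF by rw [hce]; exact hlow)).trans
      (hp'.live_low hwire hlow).symm
  · have hs : (claims L (kid L (fun _ _ => false) (3 * M L) j)).isScan = true :=
      (claims_scan L _ _ _ _).2 (by
        rw [n1]; exact (col0_iff (by omega)).2 (Nat.mul_comm _ _))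
    refine (hp.live_scan (show (claims L (at' c o (3 * M L) j)).isWire = true by rw [hce]; exact hwire)
      (show (claims L (at' c o (3 * M L) j)).isScan = true by rw [hce]; exact hs)
      (show AF ≤ (claims L (at' c o (3 * M L) j)).cy.yhC.val by rw [hce]; omega)).trans
      (Eq.trans ?_ (hp'.live_scan hwire hs
        (show AF ≤ (claims L (kid L (fun _ _ => false) (3 * M L) j)).cy.yhC.val by omega)).symm)
    exact carry_isSome hL hc _ hi3 (M_le_of_wire hw) hj

/-- In a corner a wire row shows the bits read at its crossing. -/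
lemma h_eq (hL : L₀ ≤ L) (hc : Corner L c o) {i j : ℕ} (h0 : 1 ≤ i) (hi' : i ≤ 7 * M L)
    (h1 : 1 ≤ j) (hj : j ≤ cornerH L) :
    (at' c o i j).fin.h = (kid L (bits L c o) i j).fin.h := by
  obtain ⟨m1, m2, mx, my, -, mc⟩ := mods hL hi' hj
  have hk : (kid L (bits L c o) i j).fin.h =
      fun t => if IsLive L j then bits L c o (hi L j) t else false := by
    funext t
    simp only [kid, child_h, m1, m2]
    by_cases hl : IsLive L j
    · rw [if_pos hl, if_pos]
      exact ⟨hl.1, hl.2, fun e => by omega, fun e => absurd e (by simp [mx])⟩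
    · rw [if_neg hl, if_neg fun h => hl ⟨h.1, h.2.1⟩]
  rw [hk]
  by_cases hl : IsLive L j
  swap
  · funext t
    rw [if_neg hl]
    exact (hc.pfacts hi' hj).h_zero ((live_eq hL hc hi' h1 hj).trans (by simp [hl])) t
  simp only [if_pos hl]
  have const : ∀ i', 1 ≤ i' → i' ≤ 7 * M L → (at' c o i' j).fin.h = (at' c o 1 j).fin.h := by
    intro i'
    induction i' with
    | zero => omega
    | succ i' ih =>
      intro _ h
      rcases Nat.eq_zero_or_pos i' with rfl | hp
      · rfl
      refine Eq.trans ?_ (ih hp (by omega))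
      obtain ⟨hh, -⟩ := hc.horiz h hj
      obtain ⟨n1, n2, -⟩ := mods hL h hj
      obtain ⟨o1, o2, -⟩ := mods hL (show i' ≤ 7 * M L by omega) hj
      have ec := claims_eq hL hc (fun _ _ => false) h h1 hj
      have ec' := claims_eq hL hc (fun _ _ => false) (show i' ≤ 7 * M L by omega) h1 hj
      have hr := hh.h (show (claims L (at' c o (i' + 1) j)).isWire = true by
        rw [ec]; exact (claims_wire L _ _ _ _).2 (n2.symm ▸ hl.1))
      simp only [HRule] at hr
      have a1 : ¬ (claims L (at' c o (i' + 1) j)).x0 = true := by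
        rw [ec, kid, claims_x0, n1]; omega
      have a2 : ¬ (claims L (at' c o i' j)).cut = true := by
        rw [ec', kid, claims_cut, o1, cut_iff hL]
        unfold cutX
        omega
      have a3 : ¬ (claims L (at' c o i' j)).x0 = true := by
        rw [ec', kid, claims_x0, o1]; omega
      rw [if_neg fun e => a1 e.1, if_neg fun e => a2 e.1, if_neg fun e => a3 e.1] at hr
      exact hr
  funext t
  rw [bits, if_pos hl.2]
  have hj' : j = M L + hi L j * M L ^ 2 := by
    have := coord_eq L j
    rw [hl.1.1, hl.1.2, mul_one, add_zero, Nat.mul_comm (M L ^ 2)] at this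
    omega
  have hb : M L + 2 * hi L j ≤ 7 * M L := by
    have := lastK_bound hL
    have := hl.2
    omega
  rw [← hj', const i h0 hi', const _ (le_trans (M_pos L) (Nat.le_add_right _ _)) hb]

/-- In a corner the scanning and table columns compute from the bits. -/
lemma columns_eq (hL : L₀ ≤ L) (hc : Corner L c o) {i j : ℕ} (h0 : 1 ≤ i) (hi' : i ≤ 7 * M L)
    (h1 : M L ≤ j) (hj : j ≤ cornerH L) :
    (at' c o i j).fin.carry = (kid L (bits L c o) i j).fin.carry ∧
      (at' c o i j).fin.eq = (kid L (bits L c o) i j).fin.eq ∧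
      (at' c o i j).fin.look = (kid L (bits L c o) i j).fin.look := by
  induction j with
  | zero => exact absurd h1 (by have := M_pos L; omega)
  | succ j ih =>
    obtain ⟨hv, -, -⟩ := hc.vert hi' hj
    have hk := kid_vert hL (bits L c o) (i := i) hj
    have e1 : (at' c o i (j + 1)).fin.carry = carryNext _ _ _ _ := hv.carry
    have e2 : (kid L (bits L c o) i (j + 1)).fin.carry = carryNext _ _ _ _ := hk.carry
    have e3 : (at' c o i (j + 1)).fin.eq = eqNext _ _ _ _ := hv.eq
    have e4 : (kid L (bits L c o) i (j + 1)).fin.eq = eqNext _ _ _ _ := hk.eq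
    have e5 : (at' c o i (j + 1)).fin.look = lookNext _ _ _ _ := hv.look
    have e6 : (kid L (bits L c o) i (j + 1)).fin.look = lookNext _ _ _ _ := hk.look
    rw [e1, e2, e3, e4, e5, e6]
    have hct : claims L (at' c o i (j + 1)) = claims L (kid L (bits L c o) i (j + 1)) :=
      claims_eq hL hc _ hi' (by omega) hj
    have hh := h_eq hL hc h0 hi' (show 1 ≤ j + 1 by omega) hj
    by_cases hM : M L ≤ j
    · obtain ⟨i1, i2, i3⟩ := ih hM (by omega)
      have hcd : claims L (at' c o i j) = claims L (kid L (bits L c o) i j) :=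
        claims_eq hL hc _ hi' (le_trans (M_pos L) hM) (by omega)
      have hd := h_eq hL hc h0 hi' (le_trans (M_pos L) hM) (show j ≤ cornerH L by omega)
      simp only [hct, hcd, hd, hh, i1, i2, i3, and_self]
    · obtain ⟨w1, w2⟩ := first_wire hL (bits L c o) i (by omega)
      have hjM : j + 1 = M L := by omega
      simp only [hct]
      rw [hjM]
      refine ⟨carryNext_first w1 w2 _ _ _ _ _ _, ?_, ?_⟩
      · simp only [eqNext, w1, w2, decide_true, Bool.and_self, if_true]
      · simp only [lookNext, w1, w2, decide_true, Bool.and_self, if_true]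

end Vale.Agent.P196.Tile.Corner
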