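import Vale.Agent.P196.Tile.EndOK
import Vale.Agent.P196.Tile.Facts.Fields

/-!
P196, module D: reading states from the shown bits.
-/

namespace Vale.Agent.P196.Tile

/-- The number of type `τ` shown by the component `j` of the bits. -/
def numOf (L : ℕ) (b : ℕ → Quad) (j : Fin 4) (τ : ℕ) : ℕ :=
  Nat.ofBits fun i : Fin (L + 1) => b (A + 8 * i.val + τ) j

/-- The state of level `L + 1` with the given finite data and the numbers shown by the component
`j` of the bits. -/
def decodeSt (L : ℕ) (b : ℕ → Quad) (j : Fin 4) (s : Cell) : St where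
  xk := s.2.xk
  x := numOf L b j 0 + M (L + 1) * numOf L b j 1 + M (L + 1) ^ 2 * numOf L b j 2
  y := numOf L b j 3 + M (L + 1) * numOf L b j 4 + M (L + 1) ^ 2 * numOf L b j 5
  u := numOf L b j 6
  fin := s.1

namespace Decode

variable (L : ℕ) (b : ℕ → Quad) (j : Fin 4) (s : Cell)

lemma numOf_lt (τ : ℕ) : numOf L b j τ < M (L + 1) := Nat.ofBits_lt_two_pow _

lemma three_lt {a c e : ℕ} (ha : a < M L) (hc : c < M L) (he : e < M L) :
    a + M L * c + M L ^ 2 * e < H L := by
  have h1 : M L * (c + 1) ≤ M L * M L := Nat.mul_le_mul_left _ hc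
  have h2 : M L ^ 2 * (e + 1) ≤ M L ^ 2 * M L := Nat.mul_le_mul_left _ he
  rw [Nat.mul_add, mul_one] at h1 h2
  rw [← sq] at h1
  rw [show H L = M L ^ 2 * M L by rw [H, ← pow_succ]]
  omega

lemma bounded : Scanning.Bounded (L + 1) (decodeSt L b j s) :=
  ⟨three_lt _ (numOf_lt L b j _) (numOf_lt L b j _) (numOf_lt L b j _),
    three_lt _ (numOf_lt L b j _) (numOf_lt L b j _) (numOf_lt L b j _), numOf_lt L b j _⟩

lemma num_decode (τ : ℕ) :
    num (L + 1) (decodeSt L b j s) τ = if τ < 7 then numOf L b j τ else 0 := by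
  obtain ⟨x0, x1, x2⟩ := Num.parts_of_eq (L := L + 1) (h := numOf L b j 2) (numOf_lt L b j 0)
    (numOf_lt L b j 1)
  obtain ⟨y0, y1, y2⟩ := Num.parts_of_eq (L := L + 1) (h := numOf L b j 5) (numOf_lt L b j 3)
    (numOf_lt L b j 4)
  match τ with
  | 0 => simpa [num, decodeSt] using x0
  | 1 => simpa [num, decodeSt] using x1
  | 2 => simpa [num, decodeSt] using x2
  | 3 => simpa [num, decodeSt] using y0
  | 4 => simpa [num, decodeSt] using y1
  | 5 => simpa [num, decodeSt] using y2
  | 6 => simp [num, decodeSt]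
  | n + 7 => simp [num]

/-- The shown number rows are those of the decoded state. -/
lemma testBit_num (hspare : ∀ i, i ≤ L → b (A + 8 * i + 7) j = false) {i τ : ℕ} (hi : i ≤ L)
    (hτ : τ < 8) :
    b (A + 8 * i + τ) j = (num (L + 1) (decodeSt L b j s) τ).testBit i := by
  rw [num_decode]
  by_cases h : τ < 7
  · rw [if_pos h, numOf, Nat.testBit_ofBits, dif_pos (Nat.lt_succ_of_le hi)]
  · obtain rfl : τ = 7 := by omega
    rw [if_neg h, hspare i hi, Nat.zero_testBit]

end Decode

/-- The finite bits determine the finite data. -/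
lemma finBits_inj {s t : Cell} (h : ∀ k < A, finBits s k = finBits t k) : s = t := by
  have hA : A = 1024 := rfl
  have hF : AF = 900 := rfl
  have hv : s.1.v = t.1.v := by simpa [finBits] using h 0 (by omega)
  have hh : s.1.h = t.1.h := funext fun j => by
    have := h (j.val + 1) (by omega)
    simp only [finBits, Nat.succ_ne_zero, if_false, show j.val + 1 < 5 by omega, if_true] at this
    have e : (⟨(j.val + 1 - 1) % 4, Nat.mod_lt _ (by norm_num)⟩ : Fin 4) = j :=
      Fin.ext (show (j.val + 1 - 1) % 4 = j.val by omega)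
    rwa [e] at this
  have hvb : s.1.vb = t.1.vb := funext fun j => by
    have := h (j.val + 5) (by omega)
    simp only [finBits, show j.val + 5 ≠ 0 by omega, if_false, show ¬ j.val + 5 < 5 by omega,
      show j.val + 5 < 9 by omega, if_true] at this
    have e : (⟨(j.val + 5 - 5) % 4, Nat.mod_lt _ (by norm_num)⟩ : Fin 4) = j :=
      Fin.ext (show (j.val + 5 - 5) % 4 = j.val by omega)
    rwa [e] at this
  have heq : s.1.eq = t.1.eq := by
    have h9 := h 9 (by omega)
    have h10 := h 10 (by omega)
    simp [finBits] at h9 h10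
    revert h9 h10
    rcases s.1.eq with _ | _ | _ <;> rcases t.1.eq with _ | _ | _ <;> simp
  have hrest : s.1.rest = t.1.rest := by
    refine Num.code_injective (Nat.eq_of_testBit_eq fun n => ?_)
    rcases Nat.lt_or_ge n (AF - 11) with hn | hn
    · have := h (n + 11) (by omega)
      simp only [finBits, show n + 11 ≠ 0 by omega, if_false, show ¬ n + 11 < 5 by omega,
        show ¬ n + 11 < 9 by omega, show n + 11 ≠ 9 by omega, show n + 11 ≠ 10 by omega,
        show n + 11 < AF by omega, if_true, Nat.add_sub_cancel] at this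
      exact this
    · have hle := Nat.pow_le_pow_right (show 0 < 2 by norm_num) hn
      rw [Nat.testBit_lt_two_pow ((Num.code_rest_lt s.1).trans_le hle),
        Nat.testBit_lt_two_pow ((Num.code_rest_lt t.1).trans_le hle)]
  have hcl : s.2 = t.2 := by
    refine Num.code_injective (Nat.eq_of_testBit_eq fun n => ?_)
    rcases Nat.lt_or_ge n (A - 2 - AF) with hn | hn
    · have := h (n + AF) (by omega)
      simp only [finBits, show n + AF ≠ 0 by omega, if_false, show ¬ n + AF < 5 by omega,
        show ¬ n + AF < 9 by omega, show n + AF ≠ 9 by omega, show n + AF ≠ 10 by omega,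
        show ¬ n + AF < AF by omega, show n + AF < A - 2 by omega, if_true,
        Nat.add_sub_cancel] at this
      exact this
    · have hle := Nat.pow_le_pow_right (show 0 < 2 by norm_num) hn
      rw [Nat.testBit_lt_two_pow ((Num.code_claims_lt s.2).trans_le hle),
        Nat.testBit_lt_two_pow ((Num.code_claims_lt t.2).trans_le hle)]
  obtain ⟨⟨sqx, sqy, sh, svb, sc, se, sv, sl, slv⟩, scl⟩ := s
  obtain ⟨⟨tqx, tqy, th, tvb, tc, te, tv, tl, tlv⟩, tcl⟩ := t
  simp only [Fin'.rest, Prod.mk.injEq] at hrest hv hh hvb heq hcl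
  obtain ⟨rfl, rfl, rfl, rfl, rfl⟩ := hrest
  subst hv hh hvb heq hcl
  rfl

/-- The claim rows of finite data. -/
lemma finBits_claim (s : Cell) {n : ℕ} (hn : n < A - 2 - AF) :
    finBits s (AF + n) = (code s.2).testBit n := by
  have hA : A = 1024 := rfl
  have hF : AF = 900 := rfl
  rw [finBits, if_neg (by omega), if_neg (by omega), if_neg (by omega),
    if_neg (by omega), if_neg (by omega), if_neg (by omega), if_pos (by omega),
    Nat.add_sub_cancel_left]

end Vale.Agent.P196.Tile
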