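import Vale.Agent.P196.Tile.Desub.CornerBits
import Vale.Agent.P196.Tile.Desub.Decode

/-!
P196, module D: a corner shows a window of parents accepted by the table, whose own tile has the
claimed numbers, correctly related to the tiles on its left and below.
-/

namespace Vale.Agent.P196.Tile

open ChildRules

/-- What one corner shows of the window of its parents. -/
def QuadOK (L : ℕ) (q : Quad4 St) : Prop :=
  ∃ s : Sig, InS s ∧ (∀ j, (s j).1 = (q j).fin ∧ (s j).2.xk = (q j).xk) ∧ s 0 = cell L (q 0) ∧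
    (∀ j, Scanning.Bounded L (q j)) ∧ ((q 0).xk = false → (q 0).x = 0) ∧
    VertNum L (q 0) (q 2) ∧ HorNum L (q 0) (q 1) ∧ CounterNum L (q 0) (q 2) ∧
    ((claims L (q 0)).zone = true → (q 0).fin.v = table (lo L (q 0).x))

namespace Corner

variable {L : ℕ} {c : V → St} {o : V}

/-- The height of the wire of `k`. -/
def wireY (L k : ℕ) : ℕ := M L + k * M L ^ 2

lemma wireY_spec (hL : L₀ ≤ L) (k : ℕ) :
    IsWire L (wireY L k) ∧ hi L (wireY L k) = k := by
  have hM := eight_lt_M hL
  obtain ⟨e1, e2, e3⟩ := coord_of (L := L) (a := k) (c := 1) (e := 0) (by omega) (M_pos L)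
  rw [show M L ^ 2 * k + M L * 1 + 0 = wireY L k by unfold wireY; ring] at e1 e2 e3
  exact ⟨⟨e3, e2⟩, e1⟩

lemma wireY_le {L k : ℕ} (hk : k ≤ lastK L + 1) : wireY L k ≤ cornerH L := by
  have := Nat.mul_le_mul_right (M L ^ 2) hk
  unfold wireY cornerH
  omega

/-- The row after a wire row. -/
lemma after_wire (hL : L₀ ≤ L) {k : ℕ} (hk : k ≤ lastK L) :
    wireY L k + 1 ≤ cornerH L ∧ M L ≤ wireY L k ∧
      rowsBelow L (wireY L k) = k ∧ rowsBelow L (wireY L k + 1) = k + 1 ∧
      k ≤ hi L (wireY L k + 1) := by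
  obtain ⟨hw, hk'⟩ := wireY_spec hL k
  obtain ⟨-, h1, -, -⟩ := rows_succ hL (wireY L k)
  obtain ⟨-, e2, e3, -, e5⟩ := h1 hw
  refine ⟨?_, e3, e2.trans hk', e5.trans (by rw [hk']), ?_⟩
  · have h2 := Nat.mul_le_mul_right (M L ^ 2) (show k + 1 ≤ lastK L + 1 by omega)
    have : 1 ≤ M L ^ 2 := pow_pos (M_pos L) 2
    rw [Nat.add_mul, one_mul] at h2
    unfold wireY cornerH
    omega
  · have : hi L (wireY L k) ≤ hi L (wireY L k + 1) := Nat.div_le_div_right (Nat.le_succ _)
    omega

lemma zone_pos (hL : L₀ ≤ L) {m xl : ℕ} (hm : m ≤ 6) (hm1 : 1 ≤ m) (he : xl % 4 = 2)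
    (h1 : 2 ^ (B - 1) ≤ xl) (h2 : xl < 2 ^ B) :
    IsZone L (m * M L + xl) m ∧ lo L (m * M L + xl) = xl ∧ 1 ≤ m * M L + xl ∧
      m * M L + xl ≤ 7 * M L := by
  have hB : xl < M L := by
    refine h2.trans_le (Nat.pow_le_pow_right (by norm_num) ?_)
    have := le_L₀.trans hL
    unfold B A
    omega
  have hM := eight_lt_M hL
  obtain ⟨e1, e2, e3⟩ := coord_of (L := L) (a := 0) (c := m) (show m < M L by omega) hB
  rw [show M L ^ 2 * 0 + M L * m + xl = m * M L + xl by ring] at e1 e2 e3
  have := Nat.mul_le_mul_right (M L) hm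
  have := Nat.mul_le_mul_right (M L) hm1
  exact ⟨⟨⟨e1, e2⟩, by omega, by omega, by omega⟩, e3, by omega, by omega⟩

/-- The window above a tile of a corner. -/
lemma above (hc : Corner L c o) {i j : ℕ} (h0 : 1 ≤ i) (hi' : i ≤ 7 * M L)
    (hj : j + 1 ≤ cornerH L) :
    AcceptPair (cell L (at' c o i (j + 1))) (cell L (at' c o i j)) ∧
      SpareOK (cell L (at' c o i (j + 1))) ∧
      ((claims L (at' c o i (j + 1))).zone = true →
        (at' c o i (j + 1)).fin.v = table (lo L (at' c o i (j + 1)).x)) := by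
  obtain ⟨i, rfl⟩ : ∃ i', i = i' + 1 := ⟨i - 1, by omega⟩
  have h := hc.valid (i + 1) (j + 1) (by omega) hi' (by omega) hj
  rw [quad_eq] at h
  exact ⟨h.1.2.2.2.2.2.2.2.2.1, h.1.2.2.2.2.2.2.2.2.2.2 0, h.2 0⟩

/-- The crossing of row `k` satisfies the checks on spare and constant rows. -/
lemma spare (hL : L₀ ≤ L) (hc : Corner L c o) {k : ℕ} (hk : k ≤ lastK L) :
    ((A ≤ k → k % 8 = 7 → ∀ j, bits L c o k j = false)) ∧
      (k = A - 1 → ∀ j, bits L c o k j = true) := by
  have hM := eight_lt_M hL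
  have hb := lastK_bound hL
  obtain ⟨hw, hk'⟩ := wireY_spec hL k
  have hx : M L + 2 * k ≤ 7 * M L := by omega
  have hle : wireY L k ≤ cornerH L := wireY_le (by omega)
  have hj : wireY L k = (wireY L k - 1) + 1 := by
    have := M_pos L
    unfold wireY
    omega
  obtain ⟨-, hs, -⟩ := hc.above (i := M L + 2 * k) (j := wireY L k - 1) (by omega) hx (by omega)
  rw [← hj] at hs
  obtain ⟨m1, m2, -⟩ := mods hL hx hle
  have hce := claims_eq hL hc (bits L c o) hx (by have := M_pos L; unfold wireY; omega) hle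
  have hwc : (cell L (at' c o (M L + 2 * k) (wireY L k))).2.isWire = true := by
    show (claims L (at' c o (M L + 2 * k) (wireY L k))).isWire = true
    rw [hce]
    exact (claims_wire L _ _ _ _).2 (m2.symm ▸ hw)
  have hyC : (cell L (at' c o (M L + 2 * k) (wireY L k))).2.cy.yhC.val = min k YB := by
    show (claims L (at' c o (M L + 2 * k) (wireY L k))).cy.yhC.val = _
    rw [hce, kid, claims_yhC, m2, hk']
  have hbits : bits L c o k = (at' c o (M L + 2 * k) (wireY L k)).fin.h := by
    rw [bits, if_pos hk]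
    rfl
  have hYB : A < YB := by unfold YB; omega
  refine ⟨fun hA h7 j => ?_, fun hA j => ?_⟩
  · rw [hbits]
    refine hs.1 hwc (by omega) ?_ j
    show (claims L (at' c o (M L + 2 * k) (wireY L k))).cy.yhMod.val = 7
    rw [hce, kid, claims_yhMod, m2, hk', h7]
  · rw [hbits]
    have hbd : IsBundle L (M L + 2 * k) ∧ lo L (M L + 2 * k) = 2 * k := by
      obtain ⟨e1, e2, e3⟩ := coord_of (L := L) (a := 0) (c := 1) (e := 2 * k) (by omega) (by omega)
      rw [show M L ^ 2 * 0 + M L * 1 + 2 * k = M L + 2 * k by ring] at e1 e2 e3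
      exact ⟨⟨⟨e1, e2⟩, by omega⟩, e3⟩
    refine hs.2 hwc (by omega) ?_ ?_ j
    · show (claims L (at' c o (M L + 2 * k) (wireY L k))).bundle = true
      rw [hce, kid, claims_bundle, m1]
      exact hbd.1
    · show (claims L (at' c o (M L + 2 * k) (wireY L k))).cm.diag = true
      rw [hce, kid, claims_diag L _ _ _ _ (m1.symm ▸ hbd.1), m1, m2, hk', hbd.2]

/-- The bits of a corner. -/
theorem corner_ok (hL : L₀ ≤ L) (hc : Corner L c o) :
    ∃ s : Sig, InS s ∧ s 0 = cell (L + 1) (decodeSt L (bits L c o) 0 (s 0)) ∧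
      (∀ k < A, ∀ j, finBits (s j) k = bits L c o k j) ∧
      (∀ i, i ≤ L → ∀ j, bits L c o (A + 8 * i + 7) j = false) ∧
      QuadOK (L + 1) fun j => decodeSt L (bits L c o) j (s j) := by
  have h50 : 50000 ≤ L := le_L₀.trans hL
  have hA : A = 1024 := rfl
  have hB : B = 4 * A + 2 := rfl
  have hM := M_pos L
  -- the zone column coding the finite rows
  set xl := Nat.ofBits fun n : Fin B => decide (n.val = 1) || (decide (2 ≤ n.val) &&
    (bits L c o) ((n.val - 2) / 4) ⟨(n.val - 2) % 4, Nat.mod_lt _ (by norm_num)⟩) with hxl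
  have hbit : ∀ k < A, ∀ j : Fin 4, xl.testBit (4 * k + j.val + 2) = (bits L c o) k j := by
    intro k hk j
    have e : (⟨(4 * k + j.val) % 4, Nat.mod_lt _ (by norm_num)⟩ : Fin 4) = j :=
      Fin.ext (show (4 * k + j.val) % 4 = j.val by omega)
    rw [hxl, Nat.testBit_ofBits, dif_pos (by omega)]
    simp only [show ¬ 4 * k + j.val + 2 = 1 by omega, show 2 ≤ 4 * k + j.val + 2 by omega,
      decide_false, decide_true, Bool.false_or, Bool.true_and, Nat.add_sub_cancel, e,
      show (4 * k + j.val) / 4 = k by omega]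
  have htop : 2 ^ (B - 1) ≤ xl := by
    refine Nat.ge_two_pow_of_testBit ?_
    rw [show B - 1 = 4 * (A - 1) + (3 : Fin 4).val + 2 by simp; omega, hbit _ (by omega)]
    exact (spare hL hc (by unfold lastK; omega)).2 rfl 3
  have heven : xl % 4 = 2 := by
    have h0 : xl.testBit 0 = false := by
      rw [hxl, Nat.testBit_ofBits, dif_pos (by omega)]
      simp
    have h1 : xl.testBit 1 = true := by
      rw [hxl, Nat.testBit_ofBits, dif_pos (by omega)]
      simp
    rw [Nat.testBit_zero, decide_eq_false_iff_not] at h0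
    rw [Nat.testBit_succ, Nat.testBit_zero, decide_eq_true_iff] at h1
    omega
  obtain ⟨hz, hlo, hi0, hi7⟩ := zone_pos hL (m := 4) (by norm_num) (by norm_num) heven htop
    (Nat.ofBits_lt_two_pow _)
  set i := 4 * M L + xl with hidef
  obtain ⟨hyle, hMy, hr1, hr2, hhi⟩ := after_wire hL (k := A - 1) (by unfold lastK; omega)
  obtain ⟨hw, hwk⟩ := wireY_spec hL (A - 1)
  set y := wireY L (A - 1) with hy
  obtain ⟨m1, mD, -⟩ := mods hL hi7 (show y ≤ cornerH L by omega)
  obtain ⟨-, mT, -⟩ := mods hL hi7 hyle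
  obtain ⟨hacc, -, hv⟩ := hc.above hi0 hi7 hyle
  obtain ⟨-, eD, -⟩ := columns_eq hL hc hi0 hi7 hMy (show y ≤ cornerH L by omega)
  obtain ⟨-, eT, -⟩ := columns_eq hL hc hi0 hi7 (show M L ≤ y + 1 by omega) hyle
  have cD := claims_eq hL hc (bits L c o) hi7 (show 1 ≤ y by omega) (show y ≤ cornerH L by omega)
  have cT := claims_eq hL hc (bits L c o) hi7 (show 1 ≤ y + 1 by omega) hyle
  have hD := h_eq hL hc hi0 hi7 (show 1 ≤ y by omega) (show y ≤ cornerH L by omega)
  have hTv : (at' c o i (y + 1)).fin.v = true := by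
    refine hacc.2.1 ?_ ?_ ?_ ?_
    · show (claims L (at' c o i y)).isWire = true
      rw [cD]
      exact (claims_wire L _ _ _ _).2 (mD.symm ▸ hw)
    · show (at' c o i y).fin.eq = some true
      rw [eD, kid, child_eqf, m1, mD, if_pos ⟨hz, hMy, hr1.le⟩, hr1]
      refine congrArg some (decide_eq_true fun k hk => ?_)
      simp only [zoneMatch, decide_eq_true_iff, hlo]
      exact fun j => (hbit k (by omega) j).symm
    · show (at' c o i (y + 1)).fin.eq = none
      rw [eT, kid, child_eqf, m1, mT, if_neg fun h => absurd h.2.2 (by omega)]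
    · show (at' c o i y).fin.h = (claims L (at' c o i y)).cm.q
      rw [cD, hD, kid]
      funext j
      have hkn : (child L (fun _ => false) (bits L c o) i y).x = i := by
        rw [child_x, if_pos, m1]
        rw [m1]
        exact knownX_of_col hz.1 (by norm_num)
      simp only [claims, child_y, hkn, mD, hlo, hwk, child_h, m1]
      rw [if_pos ⟨hw, by unfold lastK; omega, fun e => absurd e (by omega),
        fun e => absurd e (by simp [show ¬ H L ≤ i from (mods hL hi7 hyle).2.2.1])⟩,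
        show min (A - 1) YB = A - 1 by unfold YB; omega, decide_eq_true (show A - 1 < A by omega),
        Bool.true_and, hbit _ (by omega)]
  have hzc : (claims L (at' c o i (y + 1))).zone = true := by
    rw [cT, kid, claims_zone, m1, mT]
    exact Or.inl ⟨hz, hhi⟩
  have htab : table xl = true := by
    have := hv hzc
    rwa [(hc.pos hL hi7 hyle).2.1, hlo, hTv, eq_comm] at this
  simp only [table, decide_eq_true_iff] at htab
  obtain ⟨s, hs, hin⟩ := htab
  have hfin : ∀ k < A, ∀ j, finBits (s j) k = (bits L c o) k j := fun k hk j =>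
    (hin k hk j).trans (hbit k hk j)
  have hspare : ∀ i, i ≤ L → ∀ j, (bits L c o) (A + 8 * i + 7) j = false := fun i' hi' =>
    (spare hL hc (by unfold lastK; omega)).1 (by omega) (by omega)
  set q : Quad4 St := fun j => decodeSt L (bits L c o) j (s j) with hq
  -- the end of the scanning column
  have hreads : Scanning.Reads L (bits L c o) (Scanning.numsOf (L + 1) q)
      fun t => code (s t.castSucc).2 := by
    refine ⟨fun n hn t => ?_, fun i' hi' τ hτ t => ?_⟩
    · rw [← hfin _ (by unfold AF at *; omega) _, finBits_claim _ hn]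
    · exact Decode.testBit_num L (bits L c o) _ _ (fun i'' hi'' => hspare i'' hi'' _) hi' hτ
  have hend : (scan (bits L c o) (lastK L)).endOK := by
    set yT := cornerH L with hyT
    obtain ⟨hwT, hkT⟩ := wireY_spec hL (lastK L + 1)
    rw [show wireY L (lastK L + 1) = yT by rfl] at hwT hkT
    have hsq : 0 < M L ^ 2 := pow_pos hM 2
    obtain ⟨yD, hyD⟩ : ∃ yD, yT = yD + 1 := ⟨yT - 1, by unfold cornerH at hyT; omega⟩
    obtain ⟨-, -, hr, -⟩ := rows_succ hL yD
    rw [← hyD] at hr
    obtain ⟨-, erT, -, hrD⟩ := hr hwT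
    obtain ⟨hMD, ekD⟩ := hrD (by omega)
    rw [hkT] at erT ekD
    have hi3 : 3 * M L ≤ 7 * M L := by omega
    obtain ⟨m1, mD, -⟩ := mods hL hi3 (show yD ≤ cornerH L by omega)
    obtain ⟨-, mT, -⟩ := mods hL hi3 (show yT ≤ cornerH L by omega)
    have hcol : IsCol L (3 * M L % H L) 3 ∧ lo L (3 * M L % H L) = 0 := by
      rw [m1]
      exact (col0_iff (by have := eight_lt_M hL; omega)).2 (Nat.mul_comm _ _)
    obtain ⟨hacc, -, -⟩ := hc.above (i := 3 * M L) (j := yD) (by omega) hi3 (by omega)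
    obtain ⟨eD, -, -⟩ := columns_eq hL hc (i := 3 * M L) (by omega) hi3 hMD (by omega)
    obtain ⟨eT, -, -⟩ := columns_eq hL hc (i := 3 * M L) (j := yD + 1) (by omega) hi3 (by omega)
      (by omega)
    refine hacc.1 _ ?_ ?_
    · show (at' c o (3 * M L) yD).fin.carry = _
      rw [eD, kid, child_carry, if_pos ⟨hcol.1, hcol.2, by rw [mD]; exact hMD,
        by rw [mD]; unfold lastK at ekD; unfold AF; omega, by rw [mD]; omega⟩, mD,
        show rowIdx L yD = lastK L by omega]
    · show (at' c o (3 * M L) (yD + 1)).fin.carry = none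
      rw [eT, kid, child_carry, ← hyD, if_neg fun h => by rw [mT, erT] at h; omega]
  obtain ⟨hm0, hx0, hV, hH, hC⟩ := (Scanning.endOK_iff hL hreads
    (fun t => Decode.bounded L (bits L c o) _ _) fun t => rfl).1 hend
  refine ⟨s, hs, Prod.ext rfl hm0, hfin, hspare, s, hs, fun j => ⟨rfl, rfl⟩, Prod.ext rfl hm0,
    fun j => Decode.bounded L (bits L c o) j (s j), hx0, hV, hH, hC, fun hzone => ?_⟩
  -- the lookup column
  have hpar := hzone
  simp only [Claims.zone, claims, Bool.and_eq_true, decide_eq_true_iff] at hpar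
  obtain ⟨⟨⟨-, -⟩, hsm⟩, -⟩ := hpar
  set xl' := lo (L + 1) (q 0).x with hxl'
  have hn0 : xl' = numOf L (bits L c o) 0 0 := Decode.num_decode L (bits L c o) 0 (s 0) 0
  obtain ⟨hz6, hlo6, hj0, hj7⟩ := zone_pos hL (m := 6) (le_refl 6) (by norm_num) hsm.1 hsm.2.1 hsm.2.2
  set i6 := 6 * M L + xl' with hi6def
  have hkB : xlRow (B - 1) ≤ lastK L := by unfold xlRow lastK; omega
  obtain ⟨hyle, hMy, hr1, hr2, hhi⟩ := after_wire hL (k := xlRow (B - 1)) hkB
  obtain ⟨hw, hwk⟩ := wireY_spec hL (xlRow (B - 1))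
  set y6 := wireY L (xlRow (B - 1)) with hy6
  obtain ⟨m1, mD, mx, -⟩ := mods hL hj7 (show y6 ≤ cornerH L by omega)
  obtain ⟨-, mT, -⟩ := mods hL hj7 hyle
  obtain ⟨hacc, -, hv⟩ := hc.above hj0 hj7 hyle
  obtain ⟨-, -, eD⟩ := columns_eq hL hc hj0 hj7 hMy (show y6 ≤ cornerH L by omega)
  obtain ⟨-, -, eT⟩ := columns_eq hL hc hj0 hj7 (show M L ≤ y6 + 1 by omega) hyle
  have cD := claims_eq hL hc (bits L c o) hj7 (show 1 ≤ y6 by omega) (show y6 ≤ cornerH L by omega)
  have cT := claims_eq hL hc (bits L c o) hj7 (show 1 ≤ y6 + 1 by omega) hyle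
  have hD := h_eq hL hc hj0 hj7 (show 1 ≤ y6 by omega) (show y6 ≤ cornerH L by omega)
  have hF : AF = 900 := rfl
  have hrow : ∀ n, n ≤ L → (bits L c o) (xlRow n) 0 = xl'.testBit n := fun n hn => by
    rw [hn0, numOf, Nat.testBit_ofBits, dif_pos (Nat.lt_succ_of_le hn)]
    rfl
  have hTv : (at' c o i6 (y6 + 1)).fin.v = (lookAt L i6 (xlRow (B - 1)) (bits L c o)).vv := by
    refine hacc.2.2 _ (s 0).2 ?_ ?_ ?_ ?_ ?_ ?_ ?_
    · show (claims L (at' c o i6 y6)).isWire = true
      rw [cD]
      exact (claims_wire L _ _ _ _).2 (mD.symm ▸ hw)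
    · show (at' c o i6 y6).fin.look = _
      rw [eD, kid, child_look, m1, mD, if_pos ⟨hz6, hMy, hr1.le⟩, hr1]
    · show (at' c o i6 (y6 + 1)).fin.look = none
      rw [eT, kid, child_look, m1, mT, if_neg fun h => absurd h.2.2 (by omega)]
    · simp only [lookAt, decide_eq_true_iff, hlo6]
      exact fun n hn _ => hrow n (by omega)
    · show (at' c o i6 y6).fin.h 0 = (claims L (at' c o i6 y6)).cm.ql
      rw [cD, hD, kid]
      have hkn : (child L (fun _ => false) (bits L c o) i6 y6).x = i6 := by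
        rw [child_x, if_pos, m1]
        rw [m1]
        exact knownX_of_col hz6.1 (by norm_num)
      have e1 : min (xlRow (B - 1)) YB = xlRow (B - 1) := by unfold xlRow YB; omega
      have e2 : lidx (xlRow (B - 1)) = B - 1 := by unfold lidx xlRow; omega
      have e3 : A ≤ xlRow (B - 1) := by unfold xlRow; omega
      simp only [claims, child_y, hkn, mD, hlo6, hwk, child_h, m1, e1, e2, e3,
        show B - 1 < B by omega, decide_true, Bool.true_and]
      rw [if_pos ⟨hw, hkB, fun e => absurd e (by omega), fun e => absurd e (by simp [mx])⟩,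
        hrow _ (by omega)]
    · simp only [Look.claims, lookAt]
      rw [show min (xlRow (B - 1) - AF) (A - 2 - AF) = A - 2 - AF by unfold xlRow; omega]
      have hsum : (∑ n ∈ Finset.range (A - 2 - AF), if (bits L c o) (AF + n) 0 then 2 ^ n else 0) =
          code (s 0).2 % 2 ^ (A - 2 - AF) := by
        rw [← Num.sum_testBit]
        refine Finset.sum_congr rfl fun n hn => ?_
        rw [← hfin _ (by have := Finset.mem_range.1 hn; omega) 0,
          finBits_claim _ (Finset.mem_range.1 hn)]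
      rw [hsum, Nat.mod_eq_of_lt (Num.code_claims_lt _), Nat.mod_eq_of_lt (Num.code_claims_lt _),
        Num.claimsOfCopy_code]
    · exact (congrArg Claims.zone hm0).trans hzone
  have hzc : (claims L (at' c o i6 (y6 + 1))).zone = true := by
    rw [cT, kid, claims_zone, m1, mT]
    exact Or.inr hz6
  have h6 := hv hzc
  rw [(hc.pos hL hj7 hyle).2.1, hlo6, hTv] at h6
  rw [← h6]
  show (s 0).1.v = _
  have : finBits (s 0) 0 = (bits L c o) 0 0 := hfin 0 (by omega) 0
  have hv0 : 0 < xlRow (B - 1) := by unfold xlRow; omega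
  simp only [finBits, if_true] at this
  simp only [lookAt, hv0, decide_true, Bool.true_and, this]

end Corner

end Vale.Agent.P196.Tile
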