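import Vale.Agent.P196.Tile.Desub.Children

/-!
P196, module D: an aligned tiling with the right bits is the tiling of the children, and the bits
of a bounded state determine it.
-/

namespace Vale.Agent.P196.Tile.Desub

open ChildRules

variable {L : ℕ} {c : V → St} {o : V}

lemma y0_col {t d : Cell} (h : VFacts t d) (h0 : t.2.isY0 = true) (hw : t.2.isWire = false) :
    t.1.carry = none ∧ t.1.eq = none ∧ t.1.look = none := by
  refine ⟨h.carry.trans ?_, h.eq.trans ?_, h.look.trans ?_⟩
  · simp [carryNext, h0, hw]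
  · simp [eqNext, h0]
  · simp [lookNext, h0]

lemma place_down (L : ℕ) (o P : V) (X Y : ℕ) :
    place L o P X (Y + 1) - dir 2 = place L o P X Y := by
  ext <;> simp [place, dir] <;> ring

/-- The rules of a tile of a tiling and the tile below it. -/
lemma vfacts (hv : ValidTiling L c) (p : V) :
    VFacts (cell L (c p)) (cell L (c (p - dir 2))) := by
  have h := shape_facts ((validTiling_iff L c).1 hv p).1.2.2.2.2.2.2.2.1
  have e : quadAt c p 0 = c p := by simp [quadAt, dir_zero]
  have h0 := h.v₀
  simp only [sig, e] at h0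
  exact h0

lemma pfacts (hv : ValidTiling L c) (p : V) : PFacts (cell L (c p)) := by
  have h := shape_facts ((validTiling_iff L c).1 hv p).1.2.2.2.2.2.2.2.1
  have e : quadAt c p 0 = c p := by simp [quadAt, dir_zero]
  have h0 := h.p 0
  simp only [sig, e] at h0
  exact h0

/-- The tiles are the children of the parents with these bits. -/
theorem children (hL : L₀ ≤ L) (hv : ValidTiling L c) (ha : Aligned L c o) (hb : BitsOK L c o)
    (P : V) (X Y : ℕ) (hX : X < side L) (hY : Y < side L) :
    c (place L o P X Y) = child L table (bitQuad L c o P) X Y := by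
  set b := bitQuad L c o P with hbq
  have hshell : ∀ Y, Y < side L → SameShell (c (place L o P X Y)) (child L table b X Y) :=
    fun Y hY => ha P X Y hX hY
  have hclaims : ∀ Y, Y < side L →
      claims L (c (place L o P X Y)) = claims L (child L table b X Y) := fun Y hY => by
    obtain ⟨h1, h2, h3, h4, -⟩ := hshell Y hY
    simp only [claims, h1, h2, h3, h4]
  have hh : ∀ Y, Y < side L → (c (place L o P X Y)).fin.h = (child L table b X Y).fin.h ∧
      (c (place L o P X Y)).fin.vb = (child L table b X Y).fin.vb :=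
    fun Y hY => hb P X Y hX hY
  have hcol : ∀ Y, Y < side L →
      (c (place L o P X Y)).fin.carry = (child L table b X Y).fin.carry ∧
      (c (place L o P X Y)).fin.eq = (child L table b X Y).fin.eq ∧
      (c (place L o P X Y)).fin.look = (child L table b X Y).fin.look := by
    intro Y
    induction Y with
    | zero =>
      intro hY
      have h1 : (claims L (child L table b X 0)).isY0 = true :=
        (claims_y0 L table b X 0).2 (Nat.zero_mod _)
      have h2 : (claims L (child L table b X 0)).isWire = false := by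
        rw [Bool.eq_false_iff]
        exact fun e => (rows_zero hL).1 (Nat.zero_mod (H L) ▸ (claims_wire L table b X 0).1 e)
      obtain ⟨a1, a2, a3⟩ := y0_col (vfacts hv (place L o P X 0))
        (show (claims L (c (place L o P X 0))).isY0 = true by rw [hclaims 0 hY]; exact h1)
        (show (claims L (c (place L o P X 0))).isWire = false by rw [hclaims 0 hY]; exact h2)
      obtain ⟨b1, b2, b3⟩ := y0_col (childV (τ := table) (b := b)
        (b' := fun k => ![b k 2, b k 3, false, false]) (X := X) hL hY
        ⟨fun h => absurd rfl h, fun _ k => by simp⟩) h1 h2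
      exact ⟨a1.trans b1.symm, a2.trans b2.symm, a3.trans b3.symm⟩
    | succ Y ih =>
      intro hY
      obtain ⟨i1, i2, i3⟩ := ih (by omega)
      have h := vfacts hv (place L o P X (Y + 1))
      rw [place_down] at h
      have h' := childV (τ := table) (b := b) (b' := b) (X := X) hL hY
        ⟨fun _ => rfl, fun e => absurd e (Nat.succ_ne_zero Y)⟩
      rw [pred'_succ L (Y + 1) hY (Nat.succ_ne_zero Y), Nat.add_sub_cancel] at h'
      have ec := hclaims (Y + 1) hY
      have ed := hclaims Y (by omega)
      refine ⟨h.carry.trans (Eq.trans ?_ h'.carry.symm), h.eq.trans (Eq.trans ?_ h'.eq.symm),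
        h.look.trans (Eq.trans ?_ h'.look.symm)⟩
      · simp only [ec, ed, i1, (hh (Y + 1) hY).1]
      · simp only [ec, ed, i2, (hh Y (by omega)).1]
      · simp only [ec, ed, i3, (hh Y (by omega)).1]
  obtain ⟨h1, h2, h3, h4, h5, h6, h7⟩ := hshell Y hY
  obtain ⟨c1, c2, c3⟩ := hcol Y hY
  obtain ⟨e1, e2⟩ := hh Y hY
  have hvv : (c (place L o P X Y)).fin.v = (child L table b X Y).fin.v := by
    have ec := hclaims Y hY
    by_cases hz : (claims L (child L table b X Y)).zone = true
    · have hq := ((validTiling_iff L c).1 hv (place L o P X Y)).2 0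
      have e : quadAt c (place L o P X Y) 0 = c (place L o P X Y) := by simp [quadAt, dir_zero]
      rw [e, ec] at hq
      rw [hq hz, h2, child_v, child_x, if_pos ((claims_zone L table b X Y).1 hz), if_pos]
      rcases (claims_zone L table b X Y).1 hz with ⟨h, -⟩ | h <;>
        exact knownX_of_col h.1 (by norm_num)
    · rw [((pfacts hv (place L o P X Y)).v_zone (show (claims L (c (place L o P X Y))).zone = false
        by rw [ec]; exact Bool.eq_false_iff.2 hz)), (childP hL table b X Y).v_zone
          (Bool.eq_false_iff.2 hz)]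
  generalize c (place L o P X Y) = t at h1 h2 h3 h4 h5 h6 h7 c1 c2 c3 e1 e2 hvv ⊢
  generalize child L table b X Y = t' at h1 h2 h3 h4 h5 h6 h7 c1 c2 c3 e1 e2 hvv ⊢
  obtain ⟨_, _, _, _, ⟨_, _, _, _, _, _, _, _, _⟩⟩ := t
  obtain ⟨_, _, _, _, ⟨_, _, _, _, _, _, _, _, _⟩⟩ := t'
  simp only at h1 h2 h3 h4 h5 h6 h7 c1 c2 c3 e1 e2 hvv
  subst h1 h2 h3 h4 h5 h6 h7 c1 c2 c3 e1 e2 hvv
  rfl

/-- Bounded states with the same bits are equal. -/
lemma enc_inj {L' : ℕ} {t t' : St} (ht : Scanning.Bounded L' t) (ht' : Scanning.Bounded L' t')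
    (h : ∀ k, enc L' t k = enc L' t' k) : t = t' := by
  have hc : (t.fin, claims L' t) = (t'.fin, claims L' t') := finBits_inj fun k hk => by
    have := h k
    rwa [enc, enc, if_pos hk, if_pos hk] at this
  have hn : ∀ τ, τ < 8 → num L' t τ = num L' t' τ := fun τ hτ => Nat.eq_of_testBit_eq fun i => by
    rcases Nat.lt_or_ge i L' with hi | hi
    · have := h (A + 8 * i + τ)
      rw [enc, enc, if_neg (by omega), if_neg (by omega),
        show (A + 8 * i + τ - A) / 8 = i by omega, show (A + 8 * i + τ - A) % 8 = τ by omega,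
        decide_eq_true hi, Bool.true_and, Bool.true_and] at this
      exact this
    · have hle := Nat.pow_le_pow_right (show 0 < 2 by norm_num) hi
      rw [Nat.testBit_lt_two_pow ((Scanning.num_lt ht τ).trans_le hle),
        Nat.testBit_lt_two_pow ((Scanning.num_lt ht' τ).trans_le hle)]
  obtain ⟨hf, hcl⟩ := Prod.mk.inj hc
  have hxk : t.xk = t'.xk := congrArg Claims.xk hcl
  have hx : t.x = t'.x := (Num.eq_iff_parts L' _ _).2
    ⟨hn 0 (by norm_num), hn 1 (by norm_num), hn 2 (by norm_num)⟩
  have hy : t.y = t'.y := (Num.eq_iff_parts L' _ _).2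
    ⟨hn 3 (by norm_num), hn 4 (by norm_num), hn 5 (by norm_num)⟩
  have hu : t.u = t'.u := hn 6 (by norm_num)
  obtain ⟨_, _, _, _, _⟩ := t
  obtain ⟨_, _, _, _, _⟩ := t'
  simp only at hf hxk hx hy hu
  subst hf hxk hx hy hu
  rfl

/-- Desubstitution, from the alignment and the bits. -/
theorem desub_of (hA : AlignStatement) (hB : BitsStatement) : DesubStatement := by
  intro L hL c hv
  obtain ⟨o, ⟨ho, ha⟩, huniq⟩ := hA L hL c hv
  have hb := hB L hL c hv o ho ha
  obtain ⟨c', hc', hbits⟩ := parents hL hv ha hb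
  have hc : IsParent L c c' o := ⟨hc', fun P X Y hX hY => by
    rw [childAt, hbits]
    exact children hL hv ha hb P X Y hX hY⟩
  refine ⟨(o, c'), ⟨ho, hc⟩, ?_⟩
  rintro ⟨o₁, c₁⟩ ⟨ho₁, hc₁, hch⟩
  simp only at ho₁ hc₁ hch
  obtain rfl : o₁ = o := huniq o₁ ⟨ho₁, fun P X Y hX hY => by
    rw [hch P X Y hX hY]
    exact ⟨rfl, rfl, rfl, rfl, rfl, rfl, rfl⟩⟩
  refine Prod.ext rfl ?_
  funext Q
  have hbd : ∀ (d : V → St), ValidTiling (L + 1) d → Scanning.Bounded (L + 1) (d Q) := fun d hd => by
    have h := ((validTiling_iff (L + 1) d).1 hd Q).1.1 0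
    have e : quadAt d Q 0 = d Q := by simp [quadAt, dir_zero]
    rw [e] at h
    exact ⟨h.1, h.2.1, h.2.2.1⟩
  show c₁ Q = c' Q
  refine enc_inj (hbd c₁ hc₁) (hbd c' hc') fun k => ?_
  have e : enc (L + 1) (c' Q) k = bitQuad L c o₁ Q k 0 := by
    rw [← hbits Q]
    show _ = enc (L + 1) (quadAt c' Q 0) k
    simp [quadAt, dir_zero]
  rw [e]
  by_cases hk : k ≤ lastK L
  · have hkb := lastK_bound hL
    have hx : M L + 2 * k ≤ 7 * M L := by omega
    have hy : Corner.wireY L k ≤ cornerH L := Corner.wireY_le (by omega)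
    have := congrArg (fun t : St => t.fin.h 0)
      (hch Q _ _ (small_lt_side hL hx) (cornerH_lt_side hL hy))
    simp only [childAt, child_h] at this
    obtain ⟨m1, m2, mx, -⟩ := Corner.mods hL hx hy
    obtain ⟨hw, hk'⟩ := Corner.wireY_spec hL k
    rw [m1, m2, if_pos ⟨hw, by omega, fun e => by have := M_pos L; omega,
      fun e => absurd e (by simp [mx])⟩, hk'] at this
    simp only [bitQuad, bitAt, if_pos hk, dir_zero, sub_zero]
    rw [show k * M L ^ 2 + M L = Corner.wireY L k by unfold Corner.wireY; ring, this]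
    simp [quadBits, quadAt, dir_zero]
  · have hle : L + 1 ≤ (k - A) / 8 := by unfold lastK at hk; omega
    simp only [bitQuad, bitAt, if_neg hk, enc]
    rw [if_neg (by unfold lastK at hk; omega), decide_eq_false (by omega), Bool.false_and]

end Vale.Agent.P196.Tile.Desub
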