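import Vale.Agent.P196.Tile.Desub.Main
import Vale.Agent.P196.Tile.Assemble

/-!
P196, module D: desubstitution, and the tiling statement from primitivity and rigidity.
-/

namespace Vale.Agent.P196.Tile

/-- The tiling statement from primitivity and rigidity of the tile system. -/
theorem tiling_of_minimal_rigid (hP : hier.Primitive) (hR : hier.sft.Rigid) : TilingStatement :=
  tiling_of desubStatement hP hR

end Vale.Agent.P196.Tile
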