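import Vale.Agent.P196.Tile.Desub.Defs

/-!
P196, module D: the rules between neighbours in a valid tiling, and counting modulo a side.
-/

namespace Vale.Agent.P196.Tile

open ChildRules

namespace Grid

variable {L : ℕ} {c : V → St}

lemma window (hc : ValidTiling L c) (P : V) :
    Rule L (quadAt c P) ∧ WFacts (sig L (quadAt c P)) := by
  have h := ((validTiling_iff L c).1 hc P).1
  exact ⟨h, shape_facts h.2.2.2.2.2.2.2.1⟩

/-- The rules of a tile and the tile below it. -/
lemma vert (hc : ValidTiling L c) (n m : ℤ) :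
    VFacts (cell L (c (n, m + 1))) (cell L (c (n, m))) ∧
      VertNum L (c (n, m + 1)) (c (n, m)) ∧ CounterNum L (c (n, m + 1)) (c (n, m)) := by
  obtain ⟨h, f⟩ := window hc (n, m + 1)
  have e0 : quadAt c (n, m + 1) 0 = c (n, m + 1) := by simp [quadAt, dir]
  have e2 : quadAt c (n, m + 1) 2 = c (n, m) := by simp [quadAt, dir]
  have h0 := f.v₀
  have h1 := h.2.1
  have h2 := h.2.2.2.2.2.1
  simp only [sig, e0, e2] at h0 h1 h2
  exact ⟨h0, h1, h2⟩

/-- The rules of a tile and the tile on its left. -/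
lemma horiz (hc : ValidTiling L c) (n m : ℤ) :
    HFacts (cell L (c (n + 1, m))) (cell L (c (n, m))) ∧
      HorNum L (c (n + 1, m)) (c (n, m)) := by
  obtain ⟨h, f⟩ := window hc (n + 1, m)
  have e0 : quadAt c (n + 1, m) 0 = c (n + 1, m) := by simp [quadAt, dir]
  have e1 : quadAt c (n + 1, m) 1 = c (n, m) := by simp [quadAt, dir]
  have h0 := f.h₀
  have h1 := h.2.2.2.1
  simp only [sig, e0, e1] at h0 h1
  exact ⟨h0, h1⟩

/-- The rules of one tile. -/
lemma one (hc : ValidTiling L c) (v : V) :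
    PFacts (cell L (c v)) ∧ (c v).x < H L ∧ (c v).y < H L ∧ (c v).u < M L ∧
      ((c v).xk = false → (c v).x = 0) := by
  obtain ⟨h, f⟩ := window hc v
  have e0 : quadAt c v 0 = c v := by rw [quadAt, show dir 0 = 0 from rfl, sub_zero]
  have h0 := f.p 0
  have h1 := h.1 0
  simp only [sig, e0] at h0 h1
  exact ⟨h0, h1⟩

/-- The residue of `n` modulo `K`. -/
def res (K : ℕ) (n : ℤ) : ℕ := (n % (K : ℤ)).toNat

lemma res_cast {K : ℕ} (hK : 0 < K) (n : ℤ) : ((res K n : ℕ) : ℤ) = n % (K : ℤ) :=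
  Int.toNat_of_nonneg (Int.emod_nonneg _ (by omega))

lemma res_lt {K : ℕ} (hK : 0 < K) (n : ℤ) : res K n < K := by
  have := Int.emod_lt_of_pos n (show (0 : ℤ) < K by omega)
  have := res_cast hK n
  omega

lemma res_eq {K j : ℕ} (hj : j < K) (n : ℤ) (h : (K : ℤ) ∣ n - j) : res K n = j := by
  obtain ⟨t, ht⟩ := h
  rw [res, show n = (j : ℤ) + (K : ℤ) * t by linarith, Int.add_mul_emod_self_left,
    Int.emod_eq_of_lt (by omega) (by omega), Int.toNat_natCast]

lemma dvd_sub_res {K : ℕ} (hK : 0 < K) (n : ℤ) : (K : ℤ) ∣ n - res K n := by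
  rw [res_cast hK]
  exact ⟨n / (K : ℤ), by linarith [Int.emod_add_mul_ediv n (K : ℤ)]⟩

lemma res_add {K j : ℕ} (hK : 0 < K) {n : ℤ} (hj : res K n + j < K) :
    res K (n + j) = res K n + j := by
  refine res_eq hj _ ?_
  push_cast
  obtain ⟨t, ht⟩ := dvd_sub_res hK n
  exact ⟨t, by linarith⟩

lemma res_add_self {K : ℕ} (n : ℤ) : res K (n + K) = res K n := by
  rw [res, res, Int.add_emod_right]

lemma res_succ {K : ℕ} (hK : 0 < K) (n : ℤ) : res K (n + 1) = (res K n + 1) % K := by
  refine res_eq (Nat.mod_lt _ hK) _ ?_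
  obtain ⟨t, ht⟩ := dvd_sub_res hK n
  have := Nat.div_add_mod (res K n + 1) K
  refine ⟨t + ((res K n + 1) / K : ℕ), ?_⟩
  have h : ((K * ((res K n + 1) / K) : ℕ) : ℤ) + (((res K n + 1) % K : ℕ) : ℤ) =
      ((res K n + 1 : ℕ) : ℤ) := by exact_mod_cast this
  push_cast at h ⊢
  linarith

/-- A function counting modulo `K` is a residue. -/
lemma count_eq {K : ℕ} (f : ℤ → ℕ) (hf : ∀ n, f n < K) (hs : ∀ n, f (n + 1) = (f n + 1) % K)
    (n : ℤ) : f n = res K (n + f 0) := by
  have hK : 0 < K := lt_of_le_of_lt (Nat.zero_le _) (hf 0)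
  induction n using Int.induction_on with
  | zero => exact (res_eq (hf 0) _ (by simp)).symm
  | succ i ih => rw [hs, ih, ← res_succ hK, add_right_comm]
  | pred i ih =>
    have h := hs (-(i : ℤ) - 1)
    rw [sub_add_cancel, ih, show -(i : ℤ) + (f 0 : ℤ) = (-(i : ℤ) - 1 + f 0) + 1 by ring,
      res_succ hK] at h
    have hl := res_lt hK (-(i : ℤ) - 1 + (f 0 : ℤ))
    have hl' := hf (-(i : ℤ) - 1)
    generalize res K (-(i : ℤ) - 1 + (f 0 : ℤ)) = r at h hl
    rcases Nat.lt_or_ge (r + 1) K with h1 | h1 <;>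
      rcases Nat.lt_or_ge (f (-(i : ℤ) - 1) + 1) K with h2 | h2
    · rw [Nat.mod_eq_of_lt h1, Nat.mod_eq_of_lt h2] at h; omega
    · rw [Nat.mod_eq_of_lt h1, show f (-(i : ℤ) - 1) + 1 = K by omega, Nat.mod_self] at h; omega
    · rw [Nat.mod_eq_of_lt h2, show r + 1 = K by omega, Nat.mod_self] at h; omega
    · omega

/-- A Boolean changing exactly at the multiples of `K` tells the half modulo `2*K`. -/
lemma flip_eq {K : ℕ} (hK : 0 < K) (g : ℤ → Bool) (a : ℤ)
    (hs : ∀ n, g (n + 1) = if res K (n + 1 - a) = 0 then !g n else g n) :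
    ∃ o : ℤ, 0 ≤ o ∧ o < 2 * K ∧ (K : ℤ) ∣ o - a ∧
      ∀ n, g n = decide (K ≤ res (2 * K) (n - o)) := by
  have h2 : 0 < 2 * K := by omega
  have step : ∀ r : ℕ, r < 2 * K →
      decide (K ≤ (r + 1) % (2 * K)) =
        if (r + 1) % K = 0 then !decide (K ≤ r) else decide (K ≤ r) := by
    intro r hr
    rcases Nat.lt_or_ge (r + 1) (2 * K) with h | h
    · rw [Nat.mod_eq_of_lt h]
      by_cases h1 : r + 1 = K
      · simp [h1]
        omega
      · rw [if_neg]
        · exact decide_eq_decide.2 ⟨fun _ => by omega, fun _ => by omega⟩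
        · intro h0
          obtain ⟨t, ht⟩ := Nat.dvd_of_mod_eq_zero h0
          rcases t with _ | _ | t
          · omega
          · omega
          · rw [Nat.mul_add, Nat.mul_add, mul_one] at ht; omega
    · rw [show r + 1 = 2 * K by omega, Nat.mod_self, Nat.mul_mod_left, if_pos rfl]
      simp [show K ≤ r by omega]
      omega
  -- the half of `n - a` flips in the same way
  set w : ℤ → Bool := fun n => decide (K ≤ res (2 * K) (n - a)) with hw
  have ws : ∀ n, w (n + 1) = if res K (n + 1 - a) = 0 then !w n else w n := by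
    intro n
    simp only [hw]
    rw [show n + 1 - a = (n - a) + 1 by ring, res_succ h2, res_succ hK, step _ (res_lt h2 _)]
    have e : res K (n - a) = res (2 * K) (n - a) % K := by
      refine res_eq (Nat.mod_lt _ hK) _ ?_
      obtain ⟨t, ht⟩ := dvd_sub_res h2 (n - a)
      refine ⟨2 * t + ((res (2 * K) (n - a) / K : ℕ) : ℤ), ?_⟩
      have := Nat.div_add_mod (res (2 * K) (n - a)) K
      have h : ((K * (res (2 * K) (n - a) / K) : ℕ) : ℤ) +
          ((res (2 * K) (n - a) % K : ℕ) : ℤ) = ((res (2 * K) (n - a) : ℕ) : ℤ) := by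
        exact_mod_cast this
      push_cast at h ht ⊢
      linarith
    rw [e, Nat.mod_add_mod]
  have key : ∀ n, g n = xor (g a) (w n) := by
    have h0 : w a = false := by
      simp only [hw, sub_self]
      rw [show res (2 * K) 0 = 0 from res_eq h2 0 (by simp)]
      simp
      omega
    intro n
    obtain ⟨i, rfl⟩ : ∃ i, n = a + i := ⟨n - a, by ring⟩
    induction i using Int.induction_on with
    | zero => simp [h0]
    | succ i ih =>
      rw [show a + ((i : ℤ) + 1) = (a + i) + 1 by ring, hs, ws, ih]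
      split_ifs <;> simp
    | pred i ih =>
      have h1 := hs (a + (-(i : ℤ) - 1))
      have h2 := ws (a + (-(i : ℤ) - 1))
      rw [show a + (-(i : ℤ) - 1) + 1 = a + -(i : ℤ) by ring] at h1 h2
      rw [ih, h2] at h1
      revert h1
      split_ifs <;> cases g a <;> cases w (a + (-(i : ℤ) - 1)) <;>
        cases g (a + (-(i : ℤ) - 1)) <;> simp
  refine ⟨((res (2 * K) (a + if g a then (K : ℤ) else 0) : ℕ) : ℤ), by omega, ?_, ?_, fun n => ?_⟩
  · have := res_lt h2 (a + if g a then (K : ℤ) else 0)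
    omega
  · obtain ⟨t, ht⟩ := dvd_sub_res h2 (a + if g a then (K : ℤ) else 0)
    refine ⟨(if g a then 1 else 0) - 2 * t, ?_⟩
    push_cast at ht
    split_ifs at ht ⊢ <;> linarith
  · rw [key n, hw]
    dsimp only
    obtain ⟨t, ht⟩ := dvd_sub_res h2 (a + if g a then (K : ℤ) else 0)
    set o := res (2 * K) (a + if g a then (K : ℤ) else 0)
    obtain ⟨s, hs'⟩ := dvd_sub_res h2 (n - a)
    have hrlt := res_lt h2 (n - a)
    generalize res (2 * K) (n - a) = r at hs' hrlt ⊢
    push_cast at ht hs'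
    cases hga : g a
    · rw [hga] at ht
      simp only [Bool.false_eq_true, if_false, add_zero] at ht
      rw [res_eq hrlt (n - o) ⟨s + t, by push_cast; linarith⟩]
      simp
    · rw [hga] at ht
      simp only [if_true] at ht
      by_cases hle : K ≤ r
      · rw [res_eq (show r - K < 2 * K by omega) (n - o) ⟨s + t, by push_cast [hle]; linarith⟩]
        simp [hle]
        omega
      · rw [res_eq (show r + K < 2 * K by omega) (n - o) ⟨s + t - 1, by push_cast; linarith⟩]
        simp [hle]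

end Grid

end Vale.Agent.P196.Tile
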