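import Vale.Agent.P196.Tile.Desub.Align
import Vale.Agent.P196.Tile.Desub.Bits
import Vale.Agent.P196.Tile.Desub.Equal

/-!
P196, module D: every valid tiling is uniquely a tiling by children of a valid tiling one level up.
-/

namespace Vale.Agent.P196.Tile

/-- Desubstitution. -/
theorem desubStatement : DesubStatement := Desub.desub_of alignStatement bitsStatement

end Vale.Agent.P196.Tile
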